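import Vale.Agent.P144D.I.Lat.Core

/-!
The comparison of the two models through a common reference.
-/

namespace Vale.Agent.P144Z.ILat

open Finset P144 UL

/-- The moments `f` are those of `g` up to the factors `ζ`, `a`, `b`. -/
def Ap {m : ℕ} (f₀ f₁ g₀ g₁ : Finset (Fin m) → ℝ) (ζ a b δ : ℝ) : Prop :=
  ∀ t, |f₀ t - ζ * (b ^ t.card * g₀ t)| ≤ δ ∧ |f₁ t - ζ * (a * b ^ t.card * g₁ t)| ≤ δ

theorem fin (m : ℕ) (B a b a' b' : ℝ) {c τ ε : ℝ} (hc : 0 < c) (hτ : 0 < τ) (hτ1 : τ ≤ 1)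
    (hε : 0 < ε) : ∃ δ > 0, ∀ (f₀ f₁ h₀ h₁ p₀ p₁ g₀ g₁ : Finset (Fin m) → ℝ) (ζ ζ₁ ζ₂ ζ₃ : ℝ),
      Ap f₀ f₁ g₀ g₁ ζ a b δ → Ap h₀ h₁ g₀ g₁ ζ₁ a b δ → Ap p₀ p₁ g₀ g₁ ζ₂ a' b' δ →
      Ap g₀ g₁ g₀ g₁ ζ₃ a' b' δ → τ ≤ ζ₁ → τ ≤ ζ₃ → |ζ₂| ≤ ζ₃ → c ≤ |g₀ ∅| →
      (∀ t, |g₀ t| ≤ B ∧ |g₁ t| ≤ B) → τ * |h₀ ∅| ≤ |f₀ ∅| → τ * |g₀ ∅| ≤ |p₀ ∅| →
        |UL.psi (f₀ ∅) (fun i => f₀ {i}) f₁ - a * b ^ m * UL.psi (p₀ ∅) (fun i => p₀ {i}) p₁| ≤ ε := by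
  set z : ℝ := (|a| + 1) * (|b| + 1) ^ (m + 1) with hz
  have a1 : 1 ≤ |a| + 1 := by linarith [abs_nonneg a]
  have a2 : 1 ≤ |b| + 1 := by linarith [abs_nonneg b]
  have a4 : ∀ k ≤ m + 1, |b ^ k| ≤ (|b| + 1) ^ (m + 1) := fun k hk => by
    rw [abs_pow]
    exact (pow_le_pow_left₀ (abs_nonneg _) (by linarith) k).trans (pow_le_pow_right₀ a2 hk)
  have a6 : ∀ k ≤ m + 1, |a * b ^ k| ≤ z := fun k hk => by
    rw [abs_mul]
    exact mul_le_mul (by linarith) (a4 k hk) (abs_nonneg _) (by positivity)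
  have a5 : |b| ≤ z := by
    have := a4 1 (by omega)
    rw [pow_one] at this
    exact this.trans (le_mul_of_one_le_left (by positivity) a1)
  have z1 : 1 ≤ z := one_le_mul_of_one_le_of_one_le a1 (one_le_pow₀ a2)
  have a7 : ∀ u v : ℝ, |u| ≤ z → |v| ≤ B → |u * v| ≤ z * |B| := fun u v h1 h2 => by
    rw [abs_mul]
    exact mul_le_mul h1 (h2.trans (le_abs_self B)) (abs_nonneg _) (by positivity)
  have a8 : ∀ v : ℝ, |v| ≤ B → |v| ≤ z * |B| := fun v h => by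
    simpa using a7 1 v (by simpa using z1) h
  obtain ⟨δ, hδ, hψ⟩ := psi_close m (B := z * |B|) (c := τ * (τ * c / 2)) (ε := ε / (2 * z))
    (by positivity) (by positivity)
  refine ⟨min (δ / 2) (τ * c / 2), by positivity,
    fun f₀ f₁ h₀ h₁ p₀ p₁ g₀ g₁ ζ ζ₁ ζ₂ ζ₃ b1 b2 b3 b4 c1 c3 c2 c4 c5 c6 c7 => ?_⟩
  have m1 := min_le_left (δ / 2) (τ * c / 2)
  have m2 := min_le_right (δ / 2) (τ * c / 2)
  have t0 : 0 < τ * c := by positivity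
  have t1 : τ * (τ * c / 2) ≤ τ * c := by nlinarith
  have t2 : τ * c ≤ c := by nlinarith
  have d1 : τ * c / 2 ≤ |h₀ ∅| := by
    have e1 := (b2 ∅).1
    rw [card_empty, pow_zero, one_mul] at e1
    have e2 := abs_sub_abs_le_abs_sub (ζ₁ * g₀ ∅) (h₀ ∅)
    rw [abs_sub_comm, abs_mul, abs_of_pos (hτ.trans_le c1)] at e2
    have e3 := mul_le_mul c1 c4 hc.le (hτ.trans_le c1).le
    linarith
  have k1 := hψ (f₀ ∅) (g₀ ∅) ζ (fun i => f₀ {i}) (fun i => b * g₀ {i}) f₁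
    (fun t => a * b ^ t.card * g₁ t) ((mul_le_mul_of_nonneg_left d1 hτ.le).trans c6) (by linarith)
    (a8 _ (c5 ∅).1) (fun i => a7 _ _ a5 (c5 _).1)
    (fun t => a7 _ _ (a6 _ ((by simpa using card_le_univ t : t.card ≤ m).trans (Nat.le_succ m)))
      (c5 t).2)
    (by have := (b1 ∅).1; rw [card_empty, pow_zero, one_mul] at this; linarith)
    (fun i => by have := (b1 {i}).1; rw [card_singleton, pow_one] at this; linarith)
    fun t => by linarith [(b1 t).2]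
  have z3 : 0 < ζ₃ := hτ.trans_le c3
  have k3 : ∀ u v s : ℝ, |u - ζ₂ * s| ≤ min (δ / 2) (τ * c / 2) →
      |v - ζ₃ * s| ≤ min (δ / 2) (τ * c / 2) → |u - ζ₂ / ζ₃ * v| ≤ δ := fun u v s e1 e2 => by
    have e : u - ζ₂ / ζ₃ * v = (u - ζ₂ * s) - ζ₂ / ζ₃ * (v - ζ₃ * s) := by field_simp; ring
    have e3 : |ζ₂ / ζ₃| ≤ 1 := by
      rw [abs_div, abs_of_pos z3]
      exact div_le_one_of_le₀ c2 z3.le
    have e4 := mul_le_mul e3 e2 (abs_nonneg _) zero_le_one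
    rw [← abs_mul] at e4
    rw [e]
    linarith [abs_sub (u - ζ₂ * s) (ζ₂ / ζ₃ * (v - ζ₃ * s))]
  have k2 := hψ (p₀ ∅) (g₀ ∅) (ζ₂ / ζ₃) (fun i => p₀ {i}) (fun i => g₀ {i}) p₁ g₁
    (t1.trans ((mul_le_mul_of_nonneg_left c4 hτ.le).trans c7)) (by linarith) (a8 _ (c5 ∅).1)
    (fun i => a8 _ (c5 _).1) (fun t => a8 _ (c5 t).2) (k3 _ _ _ (b3 ∅).1 (b4 ∅).1)
    (fun i => k3 _ _ _ (b3 _).1 (b4 _).1) fun t => k3 _ _ _ (b3 t).2 (b4 t).2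
  rw [psi_scale] at k1
  generalize UL.psi (f₀ ∅) _ _ = u at k1 ⊢
  generalize UL.psi (p₀ ∅) _ _ = v at k2 ⊢
  generalize UL.psi (g₀ ∅) _ _ = w at k1 k2
  have e : u - a * b ^ m * v = (u - a * b ^ m * w) - a * b ^ m * (v - w) := by ring
  have e1 := mul_le_mul (a6 m (Nat.le_succ m)) k2 (abs_nonneg _) (by positivity)
  have e2 : z * (ε / (2 * z)) = ε / 2 := by field_simp
  have e3 : ε / (2 * z) ≤ ε / 2 := div_le_div_of_nonneg_left hε.le two_pos (by linarith)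
  rw [← abs_mul] at e1
  rw [e]
  linarith [abs_sub (u - a * b ^ m * w) (a * b ^ m * (v - w))]

/-- Sums over the sectors. -/
theorem sum_le {H H₀ : ℕ} (hH : H ≤ H₀) {ε : Finset (Fin H) → ℝ} (hε : IsSign ε)
    {f : Finset (Fin H) → ℝ} {w ς u v : ℝ} (hw : 0 < w) (hς : |ς| = 1) (hu : u ≤ v) (hv : 0 ≤ v)
    (h : ∀ S, |f S| ≤ u * w) : |w⁻¹ * (ς * ∑ S, ε S * f S)| ≤ 2 ^ H₀ * v := by
  have cS : ((univ : Finset (Finset (Fin H))).card : ℝ) ≤ 2 ^ H₀ := by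
    rw [card_univ, Fintype.card_finset, Fintype.card_fin]
    exact_mod_cast Nat.pow_le_pow_right (by norm_num) hH
  rw [abs_mul, abs_mul, hς, one_mul, abs_of_pos (inv_pos.2 hw), inv_mul_le_iff₀ hw]
  refine (abs_sum_le_sum_abs _ _).trans ((sum_le_card_nsmul _ _ (v * w) fun S _ => ?_).trans ?_)
  · rw [abs_mul, show |ε S| = 1 by rcases hε S with h | h <;> simp [h], one_mul]
    exact (h S).trans (mul_le_mul_of_nonneg_right hu hw.le)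
  · rw [nsmul_eq_mul, mul_comm w, mul_assoc]
    exact mul_le_mul_of_nonneg_right cS (by positivity)

theorem prod_z {k k₀ : ℕ} (hk : k ≤ k₀) {z z' : Fin k → ℝ} (h : ∀ i, |z i - 1| ≤ 1 / 2)
    (h' : ∀ i, |z' i - 0| ≤ 1 / 2) : (1 / 2) ^ k₀ ≤ ∏ i, z i ∧ |∏ i, z' i| ≤ ∏ i, z i := by
  have h1 : ∀ i, 1 / 2 ≤ z i := fun i => by linarith [(abs_le.1 (h i)).1]
  constructor
  · refine (pow_le_pow_of_le_one (by norm_num) (by norm_num) hk).trans ?_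
    simpa using prod_le_prod (s := univ) (f := fun _ : Fin k => (1 / 2 : ℝ))
      (fun _ _ => by norm_num) fun i _ => h1 i
  · rw [abs_prod]
    exact prod_le_prod (fun _ _ => abs_nonneg _) fun i _ => by
      have := h' i
      rw [sub_zero] at this
      linarith [h1 i]

end Vale.Agent.P144Z.ILat
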