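import Vale.Agent.P144D.I.Lat.Sec
import Vale.Agent.P144D.K.Core

/-!
The main estimate with insertions for finite sets of sites.
-/

namespace Vale.Agent.P144Z

open Finset Matrix P144 UL

/-- The estimate with insertions for the finite sets of the class `Cl`. -/
def LatMJ (Cl : Finset Site → ℕ → Prop) (q : Par) (Zσ Zε : ℝ) (L : ℕ) (c' η₁ : ℝ) : Prop :=
  ∀ K : ℕ, ∃ θ > 0, ∀ n m H₀ k₀ Λ₁ : ℕ, ∃ B : ℝ, ∀ ε > 0, ∃ J₀ : ℕ, ∀ J ≥ J₀,
    ∀ (M : ℕ) [NeZero M] (Λ : Finset Site) (T r H k : ℕ) (a : Site) (hs : Fin H → Site)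
    (s : Fin k → Tor M × Fin 4) (u : Fin k → ℕ → Tor M × Fin 4 → ℝ) (ν : Fin k → ℕ → ℝ) (o : ℝ)
    (O : Fin k → (Tor M × Fin 2 → Bool) → ℝ), H ≤ H₀ → k ≤ k₀ → Cl Λ r →
    Holes Λ T (r / 64) a hs → 17 * sc L J ≤ r / 64 → r ≤ T → T ≤ Λ₁ * sc L J → M = 64 * T →
    MkDat (pwI (Λ.image (prj M))) s u ν L J c' η₁ → LocO s K O → |o| ≤ 1 →
    (∀ i n, |O i n - o| ≤ θ) → ∃ z : Fin k → ℝ, (∀ i, |z i - o| ≤ 1 / 2) ∧
      ∀ (n' : ℕ) (x : Fin n' → Site) (y : Fin m → Site) (j : Fin m → Fin 2), n' = 0 ∨ n' = n →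
      Spins Λ (r / 64) (Sum.elim x y) → ∀ (t : Finset (Fin m)) (S : Finset (Fin H)),
        |mixJ q (pwI (Λ.image (prj M))) (spinG M a x * holeG M a hs S) s O
            (fun i : t => yE M y j i) (fun i : t => dE y j i) -
          (∏ i, z i) * Zσ ^ n' * Zε ^ t.card *
            mixJ par0 (pwI (Λ.image (prj M))) (spinG M a x * holeG M a hs S) s 1
              (fun i : t => yE M y j i) (fun i : t => dE y j i)| ≤
          ε / (sc L J : ℝ) ^ t.card * ((sc L J : ℝ) ^ (-((n' : ℝ) / 8)) * ∏ i, ν i J) ∧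
        |mixJ par0 (pwI (Λ.image (prj M))) (spinG M a x * holeG M a hs S) s 1
            (fun i : t => yE M y j i) (fun i : t => dE y j i)| ≤
          B / (sc L J : ℝ) ^ t.card * ((sc L J : ℝ) ^ (-((n' : ℝ) / 8)) * ∏ i, ν i J)

/-- Universality for the finite sets of the class `Cl` with piecewise constant boundary
condition. -/
def LatOKG (Cl : Finset Site → ℕ → Prop) (q : Par) (Zσ Zε κ : ℝ) : Prop :=
  ∀ J lam β : ℝ, 0 < J → q.μ = β * lam → q.x = Real.exp (-(2 * β * J)) → ∀ α' κ' : ℝ, 0 < κ' →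
    κ' ≤ κ → 100 * κ' ≤ α' → ∀ n m Λ₀ : ℕ, ∀ ε > 0, ∃ r₀ : ℕ, ∀ r ≥ r₀, ∀ (Λ : Finset Site)
      (b : Config) (x : Fin n → Site) (y : Fin m → Site) (j : Fin m → Fin 2), Cl Λ r →
      BcZ Λ b α' κ' r → (∀ v ∈ Λ, zd v 0 ≤ Λ₀ * r) → Spins Λ r (Sum.elim x y) →
        |lcor (gibbs J lam q.V β (some b) Λ) x y j -
          Zσ ^ n * Zε ^ m * lcor (gibbs J 0 (fun _ => 0) (Kc / J) (some b) Λ) x y j| ≤
          ε * (r : ℝ) ^ (-((n : ℝ) / 8)) / (r : ℝ) ^ m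

theorem ShapeZ.mono {Λ : Finset Site} {α κ κ' : ℝ} {r : ℕ} (h : ShapeZ Λ α κ r) (hκ : κ ≤ κ') :
    ShapeZ Λ α κ' r := fun u => by
  obtain ⟨S₁, S₂, ν₁, ν₂, k1, k2, k3, k4, k5, k6⟩ := h u
  exact ⟨S₁, S₂, ν₁, ν₂, k1, k2, k3, GeoA.epi_mono k4 hκ, GeoA.epi_mono k5 hκ, k6⟩

theorem latMJ_of (hG : GapStmt) {q : Par} {Zσ Zε c c' η α κ : ℝ} {L n₁ n₂ : ℕ} (hL : 2 ≤ L)
    (hM : MainJ q Zσ Zε L c c' η n₁ n₂) (hκ : κ ≤ 1 / 8)
    (hB : ∀ (M : ℕ) [NeZero M] (R : Reg M) (B : Gauge M) (r J : ℕ), Shape R.In α κ r →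
      Str R.pw B r → 4 * r ≤ M → 1 ≤ J → 8 * sc L J ≤ r → BAll (R.pw * B) L J c η n₁ n₂) :
    LatMJ (fun Λ r => ShapeZ Λ α κ r) q Zσ Zε L c' η := by
  intro K₀
  obtain ⟨θ, hθ, hM⟩ := hM K₀
  refine ⟨θ, hθ, fun n m H₀ k₀ Λ₁ => ?_⟩
  obtain ⟨Γ₀, hΓ₀, HG⟩ := hG (Λ₁ + 1)
  obtain ⟨C₀, hC₀, p₀⟩ := plus_K 0
  obtain ⟨C₁, hC₁, p₁⟩ := plus_K n
  set Γ : ℝ := Γ₀ * (Λ₁ + 1) with hΓd
  have hΓ : 1 ≤ Γ := one_le_mul_of_one_le_of_one_le hΓ₀ (by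
    have : (0 : ℝ) ≤ Λ₁ := Nat.cast_nonneg _
    linarith)
  obtain ⟨C, hM⟩ := hM (n + H₀ + 1 + m + k₀) (64 * Λ₁) Γ hΓ
  refine ⟨|C| * (C₀ + C₁ + 1), fun ε hε => ?_⟩
  obtain ⟨J₀, hM⟩ := hM (ε / (C₀ + C₁ + 1)) (by positivity)
  refine ⟨max J₀ 16,
    fun J hJ M _ Λ T r H k a hs s u ν o O hH hk hS h1 r1 r2 r3 hMT hD hO ho hθ' => ?_⟩
  obtain ⟨z, hz, hM⟩ := hM J (le_of_max_le_left hJ) M _ k s u ν o O (by omega) hD hO ho hθ'
  refine ⟨z, hz, fun n' x y j hn h2 t S => ?_⟩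
  have l1 : 8 * J + 8 ≤ sc L J := sc_ge hL
  have l2 : 16 ≤ J := le_of_max_le_right hJ
  set ℓ := sc L J with hℓ
  set R := regOf M Λ false with hR
  have hS₀ : Shape R.In α κ (r / 64 - 1) := (hS.shape h1.box (by omega)).mono le_rfl (by omega)
  have r5 : r / 64 ≤ T := by omega
  generalize r / 64 = ρ at *
  have l0 : (0 : ℝ) < ℓ := by exact_mod_cast (by omega : 0 < ℓ)
  have r4 : 8 * ℓ ≤ ρ - 3 := by omega
  have hx : Spins Λ ρ x := h2.comp Sum.inl_injective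
  have hxy : Spins Λ ρ (Sum.elim x fun i : t => y i) := by
    have := h2.comp (f := Sum.map id fun i : t => i.1)
      (Function.injective_id.sumMap Subtype.val_injective)
    rwa [Sum.elim_comp_map] at this
  have gap : ∀ B : Gauge M, Str R.pw B (ρ - 1) → (∀ e, T + 1 < tdist e.1 0 → B e = 1) → ∀ φ,
      φ ⬝ᵥ φ ≤ (Γ * ℓ) ^ 2 * ((Dm (R.pw * B) *ᵥ φ) ⬝ᵥ (Dm (R.pw * B) *ᵥ φ)) := by
    intro B b1 b2 φ
    have e1 : (Λ₁ + 1) * ℓ = Λ₁ * ℓ + ℓ := by ring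
    have e2 : (Λ₁ + 1) * ℓ ≤ (Λ₁ + 1) * (ρ - 1) := Nat.mul_le_mul_left _ (by omega)
    have := HG M R B α (T + 1) (ρ - 1) (hS₀.mono hκ le_rfl) b1
      (fun f hf => (K.in_le h1.box f hf).trans (by omega)) b2 (by omega) (by omega) (by omega)
      (by omega) φ 0 (fun h => absurd h (by simp [hR, regOf])) fun f hf => absurd rfl hf
    simp only [Pi.zero_apply, zero_smul, sum_const_zero, sub_zero, K.l2sq_univ'] at this
    refine this.trans (mul_le_mul_of_nonneg_right (pow_le_pow_left₀ (by positivity) ?_ 2)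
      (K.dot_nn _))
    have e3 : ((T + 1 : ℕ) : ℝ) ≤ (Λ₁ + 1) * ℓ := by exact_mod_cast (by omega : T + 1 ≤ (Λ₁ + 1) * ℓ)
    rw [hΓd, mul_assoc]
    exact mul_le_mul_of_nonneg_left e3 (by linarith)
  obtain ⟨s1, s2, -, -, s5, s6⟩ :=
    str_reg (M := M) (fr := false) S h1 hx (by simp) (by omega) (by omega)
  have b0 := hB M R 1 (ρ - 1) J hS₀ (str_one _ _) (by omega) (by omega) (by omega)
  have g0 := gap 1 (str_one _ _) fun _ _ => rfl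
  rw [mul_one] at b0 g0
  have sp := sepW_reg (M := M) (fr := false) S (fun i : t => j i) J h1 hxy (by simp) (by omega)
    (by omega)
  have cd : t.card ≤ m := by simpa using card_le_univ t
  have hp := K.rpow_le (ℓ := ℓ) (r := ρ) (by omega) (by omega) n'
  have hp0 : 0 ≤ (ℓ : ℝ) ^ (-((n' : ℝ) / 8)) := by positivity
  have hZ : |Zw par0 (R.pw * (spinG M a x * holeG M a hs S)) 1| ≤
      (C₀ + C₁ + 1) * (ℓ : ℝ) ^ (-((n' : ℝ) / 8)) * |Zw par0 R.pw 1| := by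
    rcases hn with rfl | rfl
    · exact (p₀ M Λ T ρ H x a hs S h1 hx (by omega) (by omega)).trans (by gcongr; linarith)
    · exact (p₁ M Λ T ρ H x a hs S h1 hx (by omega) (by omega)).trans (by gcongr; linarith)
  have := hM (spinG M a x * holeG M a hs S) t (fun i : t => yE M y j i) (fun i : t => dE y j i) n' _
    { P_ok := R.isP
      str := s1.mono (by omega)
      sep := ⟨fun f hf f' h' h'' => sp.ff f hf f' h' (h''.trans r4),
        fun k f hf => sp.fs k f (hf.trans r4), fun k k' hk => r4.trans_lt (sp.ss k k' hk)⟩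
      lo := by omega
      hi := by rw [hMT, mul_assoc]; exact Nat.mul_le_mul_left _ r3
      bd := hB M R _ (ρ - 1) J hS₀ s1 (by omega) (by omega) (by omega)
      bd0 := b0
      gap := g0
      card := by rw [Fintype.card_coe]; omega
      cnt := s6 } (gap _ s1 s2) hZ
  rw [Fintype.card_coe] at this
  have n0 : 0 ≤ ∏ i, ν i J := prod_nonneg fun i _ => ((hD.ch i).nu_pos le_rfl).le
  refine ⟨this.1.trans (le_of_eq (by field_simp)), this.2.trans ?_⟩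
  calc _ ≤ |C| / (ℓ : ℝ) ^ t.card *
        ((C₀ + C₁ + 1) * (ℓ : ℝ) ^ (-((n' : ℝ) / 8)) * ∏ i, ν i J) := by
        gcongr
        exact le_abs_self C
    _ = _ := by ring

end Vale.Agent.P144Z
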