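import Vale.Agent.P144D.I.O.Defs2

/-!
Universality on the lattice for an arbitrary class of regions.
-/

namespace Vale.Agent.P144Z

open Finset Matrix

/-- A class of finite sets of sites: `Sh Λ r` says that `Λ` is good below the scale `r`. -/
abbrev Shp : Type := Finset (ℤ × ℤ) → ℕ → Prop

/-- The regions of the class have good boundaries, a gap, few holes and deep points. -/
structure ShOk (Sh : Shp) (Q : Cls) (L C : ℕ) : Prop where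
  bd : ∃ C' J₁ : ℕ, ∀ (M : ℕ) [NeZero M] (Λ : Finset (ℤ × ℤ)) (fr : Bool) (B : Gauge M)
    (T r ρ J : ℕ), Sh Λ r → (∀ v ∈ Λ, zd v 0 ≤ T) → r ≤ T → 64 * T ≤ M → ρ ≤ r → J₁ ≤ J →
    C' * sc L J ≤ ρ → Str (regOf M Λ fr).pw B ρ → Q M ((regOf M Λ fr).pw * B) J
  gap : ∀ Λ₀ : ℕ, ∃ Γ : ℝ, 1 ≤ Γ ∧ ∃ ρ₀ : ℕ, ∀ (M : ℕ) [NeZero M] (Λ : Finset (ℤ × ℤ)) (fr : Bool)
    (B : Gauge M) (T r ρ : ℕ), Sh Λ r → Str (regOf M Λ fr).pw B ρ → (∀ v ∈ Λ, zd v 0 ≤ T) →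
    (∀ e, T < tdist e.1 0 → B e = 1) → ρ₀ ≤ ρ → ρ ≤ r → r ≤ T → T ≤ Λ₀ * ρ → 32 * T ≤ M →
    ∀ (φ : Tor M × Fin 4 → ℝ) (t : Tor M → ℝ),
      (fr = true → ∀ f, flux B f = -1 → cnr f ⬝ᵥ φ = 0) →
      (∀ f, t f ≠ 0 → fr = true ∧ flux B f = -1) → l2sq univ φ ≤
        (Γ * T) ^ 2 * l2sq univ (Dm ((regOf M Λ fr).pw * B) *ᵥ φ - ∑ f, t f • cnr f)
  holes : ∀ Λ₀ : ℕ, ∃ H₀ r₀ : ℕ, ∀ (Λ : Finset (ℤ × ℤ)) (T r : ℕ), Sh Λ r → r₀ ≤ r → r ≤ T →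
    T ≤ Λ₀ * r → (∀ v ∈ Λ, zd v 0 ≤ T) → ∃ H ≤ H₀, ∃ (a : ℤ × ℤ) (hs : Fin H → ℤ × ℤ),
      Holes Λ (2 * T) (r / 64) a hs ∧ ∀ (M : ℕ) [NeZero M], 8 * T ≤ M → UL.Cn M Λ a hs
  deep : ∀ Λ r, Sh Λ r → DeepOK Λ C r

/-- A family of classes that is good for small slopes `κ`. -/
def FamOk (Sh : ℝ → Shp) : Prop :=
  ∀ ε₁ > (0 : ℝ), ∃ C L₀ : ℕ, ∀ L ≥ L₀, ∃ κ₀ > (0 : ℝ), ∃ (Q : Cls) (C₁ c : ℝ), 1 ≤ C₁ ∧ 1 ≤ c ∧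
    c ^ 2 ≤ ε₁ * L ∧ Q.Ok L C₁ c ∧ ∀ κ, 0 < κ → κ ≤ κ₀ → ShOk (Sh κ) Q L C

open P144 in
/-- `LatOK` for the class `Sh`. -/
def LatG (Sh : Shp) (q : Par) (Zσ Zε : ℝ) : Prop :=
  ∀ J lam β : ℝ, 0 < J → q.μ = β * lam → q.x = Real.exp (-(2 * β * J)) → ∀ n m Λ₀ : ℕ, ∀ ε > 0,
    ∃ r₀ : ℕ, ∀ r ≥ r₀, ∀ (Λ : Finset Site) (b : Option Config) (x : Fin n → Site)
      (y : Fin m → Site) (j : Fin m → Fin 2), (b = none ∨ b = some fun _ => true) →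
      Sh Λ r → (∀ v ∈ Λ, zd v 0 ≤ Λ₀ * r) → Spins Λ r (Sum.elim x y) →
        |lcor (gibbs J lam q.V β b Λ) x y j -
          Zσ ^ n * Zε ^ m * lcor (gibbs J 0 (fun _ => 0) (Kc / J) b Λ) x y j| ≤
          ε * (r : ℝ) ^ (-((n : ℝ) / 8)) / (r : ℝ) ^ m

open P144 in
/-- `LatOKJ` for the class `Sh`. -/
def LatJ (Sh : Shp) (q : Par) (Zσ Zε κ : ℝ) : Prop :=
  ∀ J lam β : ℝ, 0 < J → q.μ = β * lam → q.x = Real.exp (-(2 * β * J)) → ∀ α' κ' : ℝ, 0 < κ' →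
    κ' ≤ κ → 100 * κ' ≤ α' → ∀ n m Λ₀ : ℕ, ∀ ε > 0, ∃ r₀ : ℕ, ∀ r ≥ r₀, ∀ (Λ : Finset Site)
      (b : Config) (x : Fin n → Site) (y : Fin m → Site) (j : Fin m → Fin 2), Sh Λ r →
      BcZ Λ b α' κ' r → (∀ v ∈ Λ, zd v 0 ≤ Λ₀ * r) → Spins Λ r (Sum.elim x y) →
        |lcor (gibbs J lam q.V β (some b) Λ) x y j -
          Zσ ^ n * Zε ^ m * lcor (gibbs J 0 (fun _ => 0) (Kc / J) (some b) Λ) x y j| ≤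
          ε * (r : ℝ) ^ (-((n : ℝ) / 8)) / (r : ℝ) ^ m

/-- Universality on the lattice for the family `Sh`. -/
def LatStmtG (Sh : ℝ → Shp) : Prop :=
  ∃ L₀ : ℕ, ∀ L ≥ L₀, ∃ κ > 0, ∀ ε > 0, ∃ η₀ > 0, ∀ R : ℕ, ∃ δ₀ > 0, ∀ q : Par,
    q.R = R → Crit L q η₀ δ₀ → ∃ Zσ Zε : ℝ, |Zσ - 1| < ε ∧ |Zε - 1| < ε ∧ MainOK q Zσ Zε ∧
      LatG (Sh κ) q Zσ Zε ∧ LatJ (Sh κ) q Zσ Zε κ

theorem latStmtJ_of_G (h : ∀ α > 0, LatStmtG fun κ Λ r => ShapeZ Λ α κ r) : LatStmtJ := h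

end Vale.Agent.P144Z
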