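import Vale.Agent.P144D.I.Lat.Core

/-!
Universality for the free and plus boundary conditions, with given constants.
-/

namespace Vale.Agent.P144Z

open Finset P144 UL

theorem latOK_of (hK : KStmt) {q : Par} {Zσ Zε c η γ δ₀ α κ : ℝ} {L n₁ n₂ : ℕ} (hL2 : 2 ≤ L)
    (hq : q.Ok) (hM : MainR q Zσ Zε L c η n₁ n₂ γ δ₀) (hκ : κ ≤ 1 / 8)
    (hB : ∀ (M : ℕ) [NeZero M] (R : Reg M) (B : Gauge M) (r J : ℕ), Shape R.In α κ r →
      Str R.pw B r → 4 * r ≤ M → 1 ≤ J → 8 * sc L J ≤ r → BAll (R.pw * B) L J c η n₁ n₂)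
    (hΔ' : ∀ (M : ℕ) [NeZero M] (R : Reg M),
      (R.cor q).Ok ∧ (R.cor q).Off R.pw ∧ (R.cor q).Sm q.R γ δ₀) : LatOK q Zσ Zε α κ := by
  intro J lam β hJ hμ hx n m Λ₀ ε hε
  have rq : Rel J lam β q := ⟨hq.pot, hq.range, hμ, hx⟩
  have r0 : Rel J 0 (Kc / J) par0 := ⟨U1.pot_zero, fun _ h => absurd rfl h, (mul_zero _).symm, by
    rw [mul_assoc, div_mul_cancel₀ _ hJ.ne']
    exact U4.tc_eq⟩
  obtain ⟨H₀, hH⟩ := exists_holes (Λ₀ + 1)
  have co := core hK hL2 hM hκ hB hΔ'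
  obtain ⟨B₁, c₁⟩ := co n m H₀ (2 * (Λ₀ + 1) * (1200 * L))
  obtain ⟨B₀, c₀⟩ := co 0 m H₀ (2 * (Λ₀ + 1) * (1200 * L))
  set z : ℝ := (|Zσ| + 1) ^ n * (|Zε| + 1) ^ (m + 1) with hz
  have a1 : 1 ≤ |Zσ| + 1 := by linarith [abs_nonneg Zσ]
  have a2 : 1 ≤ |Zε| + 1 := by linarith [abs_nonneg Zε]
  have a3 : 1 ≤ (|Zσ| + 1) ^ n := one_le_pow₀ a1
  have a4 : ∀ k ≤ m + 1, |Zε ^ k| ≤ (|Zε| + 1) ^ (m + 1) := fun k hk => by
    rw [abs_pow]
    exact (pow_le_pow_left₀ (abs_nonneg _) (by linarith) k).trans (pow_le_pow_right₀ a2 hk)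
  have a5 : ∀ k ≤ m + 1, |Zε ^ k| ≤ z := fun k hk =>
    (a4 k hk).trans (le_mul_of_one_le_left (by positivity) a3)
  have a6 : ∀ k ≤ m + 1, |Zσ ^ n * Zε ^ k| ≤ z := fun k hk => by
    rw [abs_mul, abs_pow]
    exact mul_le_mul (pow_le_pow_left₀ (abs_nonneg _) (by linarith) n) (a4 k hk) (abs_nonneg _)
      (by positivity)
  have a7 : ∀ u v B : ℝ, |u| ≤ z → |v| ≤ B → |u * v| ≤ z * |B| := fun u v B h1 h2 => by
    rw [abs_mul]
    exact mul_le_mul h1 (h2.trans (le_abs_self B)) (abs_nonneg _) (by positivity)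
  have z0 : 0 ≤ z := by positivity
  have cL : (1 : ℝ) ≤ (1200 * L : ℕ) := by exact_mod_cast (by omega : 1 ≤ 1200 * L)
  obtain ⟨δ, hδ, hψ⟩ := psi_cont m (z * |B₀| + z * |B₁|)
    (ε := ε / ((1200 * L : ℕ) : ℝ) ^ (n + m)) (by positivity)
  obtain ⟨J₁, c₁⟩ := c₁ δ hδ
  obtain ⟨J₀, c₀⟩ := c₀ δ hδ
  refine ⟨64 * (17 * sc L (max J₀ J₁) + q.R + 2), fun r hr Λ b x y j hb hS hΛ hs => ?_⟩
  have s8 := sc_ge (J := max J₀ J₁) hL2
  have hx' : ∀ i, x i ∈ Λ := fun i => hs.ins (Sum.inl i) _ (by simp [zd_self])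
  have hy' : ∀ k, y k ∈ Λ ∧ y k + dir (j k) ∈ Λ := fun k =>
    ⟨hs.ins (Sum.inr k) _ (by simp [zd_self]),
      hs.ins (Sum.inr k) _ ((zd_add_dir _ _).trans (by omega))⟩
  have r0' : (0 : ℝ) < r := by exact_mod_cast (by omega : 0 < r)
  by_cases ho : b = none ∧ Odd n
  · obtain ⟨rfl, hn⟩ := ho
    rw [lcor_odd hq.pot hn hx' hy', lcor_odd U1.pot_zero hn hx' hy', mul_zero, sub_zero,
      abs_zero]
    positivity
  obtain ⟨N, n1, n2, n3⟩ := Mn.exists_scale (c := 17) (J := max J₀ J₁) (M := r / 64) hL2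
    (by norm_num) (by omega)
  rw [show sc L (N + 1) = L * sc L N by unfold sc; ring] at n3
  have s9 := sc_ge (J := N) hL2
  have e1 : (Λ₀ + 1) * r = Λ₀ * r + r := by ring
  have e2 : 2 * (Λ₀ + 1) * (1200 * L) * sc L N = 2 * ((Λ₀ + 1) * (1200 * (L * sc L N))) := by ring
  have e3 : sc L N ≤ L * sc L N := Nat.le_mul_of_pos_left _ (by omega)
  have e4 : r ≤ 1200 * (L * sc L N) := by omega
  have e5 := Nat.mul_le_mul_left (Λ₀ + 1) e4
  set T := (Λ₀ + 1) * r with hT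
  have hΛ' : ∀ v ∈ Λ, zd v 0 ≤ T := fun v hv => (hΛ v hv).trans (by omega)
  have : NeZero (64 * (2 * T)) := ⟨by omega⟩
  set M := 64 * (2 * T) with hMd
  have sZ : ShapeZ Λ α (1 / 8) r := hS.mono hκ
  obtain ⟨fr, H, hH, a, hs', rfl, h1, hc, hfr⟩ : ∃ fr : Bool, ∃ H ≤ H₀, ∃ a,
      ∃ hs' : Fin H → Site, b = (if fr then none else some fun _ => true) ∧
      Holes Λ (2 * T) (r / 64) a hs' ∧ (fr = false → Cn M Λ a hs') ∧
      (fr = true → H = 0 ∧ Even n) := by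
    obtain ⟨H, hH, a, hs', h1, hc⟩ := hH Λ α T r sZ (by omega) (by omega) le_rfl hΛ'
    rcases hb with rfl | rfl
    · exact ⟨true, 0, Nat.zero_le _, a, Fin.elim0, rfl, ⟨h1.box, h1.a_le, fun i => i.elim0,
        h1.a_out, fun i => i.elim0, fun i => i.elim0, fun i => i.elim0⟩, by simp,
        fun _ => ⟨rfl, Nat.not_odd_iff_even.1 fun h => ho ⟨rfl, h⟩⟩⟩
    · exact ⟨false, H, hH, a, hs', rfl, h1, fun _ => hc M (by omega), by simp⟩
  have hS' : Shape (regOf M Λ fr).In α κ (r / 64) :=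
    (hS.shape hΛ' (by omega)).mono le_rfl (by omega)
  have hs1 := hs.mono (Nat.div_le_self r 64)
  have hs0 : Spins Λ (r / 64) (Sum.elim (Fin.elim0 : Fin 0 → Site) y) := by
    have := hs1.comp (f := Sum.map (Fin.elim0 : Fin 0 → Fin n) id)
      (Function.Injective.sumMap (fun i => i.elim0) Function.injective_id)
    have e : x ∘ (Fin.elim0 : Fin 0 → Fin n) = Fin.elim0 := funext fun i => i.elim0
    rwa [Sum.elim_comp_map, e, Function.comp_id] at this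
  have d₁ := c₁ N (le_of_max_le_right n1) M Λ fr _ _ H x y j a hs' hH hS' h1 hs1 hfr (by omega)
    (by omega) (by omega) rfl
  have d₀ := c₀ N (le_of_max_le_left n1) M Λ fr _ _ H Fin.elim0 y j a hs' hH hS' h1 hs0
    (fun h => ⟨(hfr h).1, Even.zero⟩) (by omega) (by omega) (by omega) rfl
  simp only [Nat.cast_zero, zero_div, Real.rpow_zero, pow_zero, one_mul] at d₀
  have q1 := UL.lcor_eq rq h1 hc (by omega) hx' hy' hfr
  have q0 := UL.lcor_eq r0 h1 hc (by change 4 * (_ + 0 + 2) ≤ _; omega) hx' hy' hfr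
  have o1 := one_le_mx (a := a) (hs := hs') y j h1.box (by omega) (fun h => (hfr h).1)
    (ne_zero r0 h1 hc (by change 4 * (_ + 0 + 2) ≤ _; omega) fun h => (hfr h).1)
  change lcor (gibbs J 0 (fun _ => 0) _ _ _) _ _ _ = _ at q0
  rw [q1, q0]
  set ℓ : ℝ := ((sc L N : ℕ) : ℝ) with hℓ
  have l0 : 0 < ℓ := by rw [hℓ]; exact_mod_cast (by omega : 0 < sc L N)
  set w : ℝ := ℓ ^ ((n : ℝ) / 8) with hw
  have w0 : 0 < w * ℓ ^ m := by positivity
  have b0 : 0 ≤ z * |B₀| := by positivity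
  have b1 : 0 ≤ z * |B₁| := by positivity
  have key := hψ _ _ (fun k => ℓ * mx q (regOf M Λ fr) a hs' y j Fin.elim0 {k})
    (fun k => Zε * ℓ * mx par0 (regOf M Λ fr) a hs' y j Fin.elim0 {k})
    (fun t => w * ℓ ^ t.card * mx q (regOf M Λ fr) a hs' y j x t)
    (fun t => Zσ ^ n * w * (Zε * ℓ) ^ t.card * mx par0 (regOf M Λ fr) a hs' y j x t) o1
    (by
      have h := a7 _ _ _ (a5 0 (by omega)) (d₀ ∅).2
      simp only [card_empty, pow_zero, one_mul] at h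
      linarith [le_abs_self (mx par0 (regOf M Λ fr) a hs' y j Fin.elim0 ∅)])
    (fun k => by
      have h := a7 _ _ _ (a5 1 (by omega)) (d₀ {k}).2
      simp only [card_singleton, pow_one, ← mul_assoc] at h
      linarith)
    (fun t => by
      have h := a7 _ _ _ (a6 t.card ((by simpa using card_le_univ t : t.card ≤ m).trans
        (Nat.le_succ m))) (d₁ t).2
      refine le_trans (le_of_eq (congrArg _ (by ring))) (h.trans (by linarith)))
    (by simpa only [card_empty, pow_zero, one_mul] using (d₀ ∅).1)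
    (fun k => by simpa only [card_singleton, pow_one] using (d₀ {k}).1) fun t => (d₁ t).1
  rw [psi_scale, psi_scale] at key
  have rs := rescale l0 r0' cL (by rw [hℓ]; exact_mod_cast (by rwa [mul_assoc])) n m
  generalize UL.psi (mx q (regOf M Λ fr) a hs' y j Fin.elim0 ∅) _ _ = u at key ⊢
  generalize UL.psi (mx par0 (regOf M Λ fr) a hs' y j Fin.elim0 ∅) _ _ = u₀ at key ⊢
  have e : u - Zσ ^ n * Zε ^ m * u₀ =
      (w * ℓ ^ m)⁻¹ * (w * ℓ ^ m * u - Zσ ^ n * w * (Zε * ℓ) ^ m * u₀) := by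
    rw [eq_inv_mul_iff_mul_eq₀ w0.ne']
    ring
  rw [e, abs_mul, abs_of_pos (inv_pos.2 w0)]
  refine (mul_le_mul rs key (abs_nonneg _) (by positivity)).trans (le_of_eq ?_)
  field_simp

end Vale.Agent.P144Z
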