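import Vale.Agent.P144D.I.Lat.Main
import Vale.Agent.P144D.I.Lat.Old
import Vale.Agent.P144D.K.Main
import Vale.Agent.P144D.B.Gap
import Vale.Agent.P144D.B.Bd

/-!
Universality on the lattice with piecewise constant boundary conditions.
-/

namespace Vale.Agent.P144Z

open Finset P144 UL

theorem latStmtJ_of (hM : MainBothJ) (hMark : MarkStmt) (hA : SecA) (hS : SecB) (hMk : MkStmt)
    (hD : DeepStmt) (hLB : LBStmt) : LatStmtJ := by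
  intro α hα
  obtain ⟨c, hc, n₁, hB⟩ := bdStmt α hα
  obtain ⟨c', hc', Cm, hMk⟩ := hMk
  obtain ⟨Cd, -, hD⟩ := hD α hα
  obtain ⟨ηL, hηL, CL, LL, hLB⟩ := hLB Cd c' hc'
  obtain ⟨η₀, hη₀, hM⟩ := hM c c' n₁ hc hc'
  have η0 : 0 < min η₀ ηL := by positivity
  obtain ⟨n₂, LB, hB⟩ := hB _ η0
  obtain ⟨Lm, hMk⟩ := hMk _ η0
  obtain ⟨LM, hM⟩ := hM _ η0 (min_le_left _ _) n₂
  refine ⟨2 + LB + LM + Lm + LL, fun L hL => ?_⟩
  have hL2 : 2 ≤ L := by omega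
  obtain ⟨κB, hκB, hB⟩ := hB L (by omega)
  obtain ⟨κm, hκm, hMk⟩ := hMk L (by omega)
  obtain ⟨κL, hκL, hLB⟩ := hLB L (by omega)
  set κ : ℝ := min (min κB κm) (min κL (min α 1 / 100)) with hκ
  have k0 : 0 < κ := by positivity
  have k1 : κ ≤ κB := (min_le_left _ _).trans (min_le_left _ _)
  have k2 : κ ≤ κm := (min_le_left _ _).trans (min_le_right _ _)
  have k3 : κ ≤ κL := (min_le_right _ _).trans (min_le_left _ _)
  have k4 : κ ≤ min α 1 / 100 := (min_le_right _ _).trans (min_le_right _ _)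
  have k5 : κ ≤ 1 / 8 := by linarith [min_le_right α 1]
  clear_value κ
  refine ⟨κ, k0, fun ε₀ hε₀ => ?_⟩
  obtain ⟨η₂, hη₂, hM⟩ := hM L (by omega) ε₀ hε₀
  obtain ⟨C₂, hC₂, hΔ⟩ := cor_reg
  refine ⟨η₂ / C₂, by positivity, fun R => ?_⟩
  obtain ⟨δ₁, hδ₁, hM₀⟩ := hM 0
  obtain ⟨Z₁, Z₂, -, -, -, -, hM₀⟩ := hM₀ par0 rfl (crit_par0 L _ _ hη₂.le hδ₁.le)
  obtain ⟨δ₀, hδ₀, hM⟩ := hM R
  obtain ⟨C₃, hC₃, hΔ⟩ := hΔ R
  refine ⟨min (δ₀ / C₃) 1, by positivity, fun q hR hq => ?_⟩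
  have hq' := hq.mono le_rfl (min_le_left _ _)
  obtain ⟨Zσ, Zε, z1, z2, hP, hMR, hMJ⟩ := hM q hR
    (hq'.mono (div_le_self hη₂.le hC₂) (div_le_self hδ₀.le hC₃))
  have hB' := fun M [NeZero M] (R : Reg M) B r J (h : Shape R.In α κ r) =>
    hB M R B r J (h.mono k1 le_rfl)
  refine ⟨Zσ, Zε, z1, z2, hP, latOK_of (kStmt_of gapStmt) hL2 hq.ok hMR k5 hB' fun M _ R => ?_,
    latOKG_of (Cd := Cd) (C₁ := 17 + Cm + CL) hL2 (by omega) hq.ok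
      (hq.mono le_rfl (min_le_right _ _)).small (latMJ_of gapStmt hL2 hMJ k5 hB')
      (latMJ_of gapStmt hL2 hM₀ k5 hB') hMark hA hS (fun Λ₀ => ?_)
      (fun Λ r h => hD κ Λ r k0 (by linarith) h) (fun M _ I r J z e h1 h2 h3 h4 => ?_) fun N => ?_⟩
  · have := hΔ M R q _ _ hR hq.ok hq'.x hq'.small
    rwa [mul_div_cancel₀ _ (by positivity), mul_div_cancel₀ _ (by positivity)] at this
  · obtain ⟨H₀, hH⟩ := exists_holes Λ₀
    exact ⟨H₀, fun Λ T r h => hH Λ α T r (h.mono k5)⟩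
  · exact hMk M I r J z e (h1.mono k2 le_rfl) h2 h3
      ((Nat.mul_le_mul_right _ (by omega)).trans h4)
  · obtain ⟨c₀, hc₀, J₀, hLB⟩ := hLB N
    exact ⟨c₀, hc₀, J₀, fun J hJ M _ Λ T r H k a hs x e u ν n₀ h1 h2 h3 h4 h5 h6 h7 h8 h9 h10 h11
      h12 h13 => hLB J hJ M Λ T r H k a hs x e u ν n₀ h1 h2 h3 h4 h5 h6 h7 (h8.mono k3 le_rfl)
        ((Nat.mul_le_mul_right _ (by omega)).trans h9) h10 h11 h12
        fun i => (h13 i).mono η0.le (min_le_right _ _)⟩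

end Vale.Agent.P144Z
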