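import Vale.Agent.P144D.I.Lat.GK
import Vale.Agent.P144D.U.Lat

/-!
Universality for the free and the plus boundary condition in a class of regions.
-/

namespace Vale.Agent.P144Z

open Finset P144

namespace ILG

open UL

theorem core {Sh : Shp} {Q : Cls} {L C : ℕ} {q : Par} {Zσ Zε γ δ : ℝ} (hL : 2 ≤ L)
    (hSh : ShOk Sh Q L C) (hM : MainQ Q q Zσ Zε L γ δ)
    (hΔ : ∀ (M : ℕ) [NeZero M] (R : Reg M),
      (R.cor q).Ok ∧ (R.cor q).Off R.pw ∧ (R.cor q).Sm q.R γ δ) :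
    ∃ c₁ : ℕ, 1 ≤ c₁ ∧ ∀ n m H₀ Λ₁ : ℕ,
    ∃ B : ℝ, ∀ ε > 0, ∃ J₀ : ℕ, ∀ J ≥ J₀, ∀ (M : ℕ) [NeZero M] (Λ : Finset Site) (fr : Bool)
      (T r₀ r H : ℕ) (x : Fin n → Site) (y : Fin m → Site) (j : Fin m → Fin 2) (a : Site)
      (hs : Fin H → Site), H ≤ H₀ → Sh Λ r₀ → Holes Λ T r a hs →
      Spins Λ r (Sum.elim x y) → (fr = true → H = 0 ∧ Even n) → c₁ * sc L J ≤ r → r ≤ r₀ →
      r₀ ≤ T → T ≤ Λ₁ * sc L J → M = 64 * T → ∀ t : Finset (Fin m),
        |(sc L J : ℝ) ^ ((n : ℝ) / 8) * (sc L J : ℝ) ^ t.card * mx q (regOf M Λ fr) a hs y j x t -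
          Zσ ^ n * (sc L J : ℝ) ^ ((n : ℝ) / 8) * (Zε * sc L J) ^ t.card *
            mx par0 (regOf M Λ fr) a hs y j x t| ≤ ε ∧
        |(sc L J : ℝ) ^ ((n : ℝ) / 8) * (sc L J : ℝ) ^ t.card *
          mx par0 (regOf M Λ fr) a hs y j x t| ≤ B := by
  obtain ⟨C', J₁, hB⟩ := hSh.bd
  refine ⟨17 + C', by omega, fun n m H₀ Λ₁ => ?_⟩
  obtain ⟨CK, Γ, h, hCK, hΓ, hh, ρ₁, hK⟩ := kG_of hSh n Λ₁
  obtain ⟨C, hM⟩ := hM (n + H₀ + 1 + m) (64 * Λ₁) Γ h hΓ hh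
  refine ⟨2 ^ H₀ * (|C| * CK), fun ε hε => ?_⟩
  obtain ⟨J₀, hM⟩ := hM (ε / (2 ^ H₀ * (CK + 1))) (by positivity)
  refine ⟨max J₀ (J₁ + ρ₁), fun J hJ M _ Λ fr T r₀ r H x y j a hs hH hS h1 h2 hfr r1 r5 r2 r3 hMT
    t => ?_⟩
  have l1 : 8 * J + 8 ≤ sc L J := sc_ge hL
  have l2 : J₁ + ρ₁ ≤ J := le_of_max_le_right hJ
  rw [add_mul] at r1
  set ℓ := sc L J with hℓ
  set R := regOf M Λ fr with hR
  have l0 : (0 : ℝ) < ℓ := by exact_mod_cast (by omega : 0 < ℓ)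
  have r4 : 8 * ℓ ≤ r - 3 := by omega
  have hx : Spins Λ r x := h2.comp Sum.inl_injective
  have hxy : Spins Λ r (Sum.elim x fun k : t => y k) := by
    have := h2.comp (f := Sum.map id fun k : t => k.1)
      (Function.injective_id.sumMap Subtype.val_injective)
    rwa [Sum.elim_comp_map] at this
  have hQ : ∀ B : Gauge M, Str R.pw B (r - 1) → Q M (R.pw * B) J := fun B hs =>
    hB M Λ fr B T r₀ (r - 1) J hS h1.box r2 hMT.ge (by omega) (by omega)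
      (by change C' * ℓ ≤ _; omega) hs
  have key : ∀ S : Finset (Fin H),
      |mixC q (R.cor q) R.pw (spinG M a x * holeG M a hs S) (fun k : t => yE M y j k)
          (fun k : t => dE y j k) - Zσ ^ n * Zε ^ t.card * mixC par0 (R.cor par0) R.pw
          (spinG M a x * holeG M a hs S) (fun k : t => yE M y j k) (fun k : t => dE y j k)| ≤
        ε / (2 ^ H₀ * (CK + 1)) / (ℓ : ℝ) ^ t.card * (CK * (ℓ : ℝ) ^ (-((n : ℝ) / 8))) ∧
      |mixC par0 (R.cor par0) R.pw (spinG M a x * holeG M a hs S) (fun k : t => yE M y j k)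
          (fun k : t => dE y j k)| ≤ C / (ℓ : ℝ) ^ t.card * (CK * (ℓ : ℝ) ^ (-((n : ℝ) / 8))) := by
    intro S
    obtain ⟨s1, -, -, -, s5, s6⟩ := str_reg (M := M) S h1 hx hfr (by omega) (by omega)
    obtain ⟨k1, k2⟩ := hK M Λ fr T r₀ r ℓ H x a hs S hS h1 hx hfr (by omega)
      (by omega) (by omega) r5 r2 r3 hMT.ge
    have b0 := hQ 1 (K.str_one' _ _)
    rw [mul_one] at b0
    have sp := sepW_reg (M := M) S (fun k : t => j k) J h1 hxy hfr (by omega) (by omega)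
    have cd : t.card ≤ m := by simpa using card_le_univ t
    obtain ⟨d1, d2, d3⟩ := hΔ M R
    have := hM J (le_of_max_le_left hJ) M R.pw _ (R.cor q) t (fun k : t => yE M y j k)
      (fun k : t => dE y j k) n (CK * (ℓ : ℝ) ^ (-((n : ℝ) / 8)))
      { P_ok := R.isP
        str := s1.mono (by omega)
        sep := ⟨fun f hf f' h' h'' => sp.ff f hf f' h' (h''.trans r4),
          fun k f hf => sp.fs k f (hf.trans r4), fun k k' hk => r4.trans_lt (sp.ss k k' hk)⟩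
        lo := by omega
        hi := by rw [hMT, mul_assoc]; exact Nat.mul_le_mul_left _ r3
        bd := hQ _ s1
        bd0 := b0
        gap := k1
        card := by rw [Fintype.card_coe]; omega
        cnt := s6 } d1 d3 d2 (by positivity) (k2 _ _ _ _)
    rwa [Fintype.card_coe, ← R.cor_par0] at this
  have cS : ((univ : Finset (Finset (Fin H))).card : ℝ) ≤ 2 ^ H₀ := by
    rw [card_univ, Fintype.card_finset, Fintype.card_fin]
    exact_mod_cast Nat.pow_le_pow_right (by norm_num) hH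
  have w0 : 0 < (ℓ : ℝ) ^ ((n : ℝ) / 8) * (ℓ : ℝ) ^ t.card := by positivity
  have w1 : ∀ u : ℝ, (ℓ : ℝ) ^ ((n : ℝ) / 8) * (ℓ : ℝ) ^ t.card *
      (u / (ℓ : ℝ) ^ t.card * (CK * (ℓ : ℝ) ^ (-((n : ℝ) / 8)))) = u * CK := fun u => by
    rw [Real.rpow_neg l0.le]
    field_simp
  have w2 : ∀ (f : Finset (Fin H) → ℝ) (u : ℝ), 0 ≤ u →
      (∀ S, |f S| ≤ u / (ℓ : ℝ) ^ t.card * (CK * (ℓ : ℝ) ^ (-((n : ℝ) / 8)))) →
      |(ℓ : ℝ) ^ ((n : ℝ) / 8) * (ℓ : ℝ) ^ t.card * ∑ S, f S| ≤ 2 ^ H₀ * (u * CK) := by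
    intro f u hu hf
    rw [mul_sum]
    refine (abs_sum_le_sum_abs _ _).trans ((sum_le_card_nsmul _ _ (u * CK) fun S _ => ?_).trans ?_)
    · rw [abs_mul, abs_of_pos w0, ← w1]
      exact mul_le_mul_of_nonneg_left (hf S) w0.le
    · rw [nsmul_eq_mul]
      exact mul_le_mul_of_nonneg_right cS (by positivity)
  constructor
  · have := w2 _ _ (by positivity) fun S => (key S).1
    rw [sum_sub_distrib, ← mul_sum] at this
    refine le_trans (le_of_eq (congrArg _ ?_)) (this.trans ?_)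
    · unfold mx
      ring
    · calc _ = ε * (CK / (CK + 1)) := by field_simp
        _ ≤ ε := mul_le_of_le_one_right hε.le (div_le_one_of_le₀ (by linarith) (by linarith))
  · exact w2 _ _ (abs_nonneg C) fun S => (key S).2.trans (by gcongr; exact le_abs_self C)

end ILG

open UL in
/-- Universality on the lattice for a good class of regions. -/
theorem latG_of {Sh : Shp} {Q : Cls} {L C : ℕ} {q : Par} {Zσ Zε γ δ : ℝ} (hL2 : 2 ≤ L)
    (hSh : ShOk Sh Q L C) (hq : q.Ok) (hM : MainQ Q q Zσ Zε L γ δ)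
    (hΔ : ∀ (M : ℕ) [NeZero M] (R : Reg M),
      (R.cor q).Ok ∧ (R.cor q).Off R.pw ∧ (R.cor q).Sm q.R γ δ) : LatG Sh q Zσ Zε := by
  intro J lam β hJ hμ hx n m Λ₀ ε hε
  have rq : Rel J lam β q := ⟨hq.pot, hq.range, hμ, hx⟩
  have r0 : Rel J 0 (Kc / J) par0 := ⟨U1.pot_zero, fun _ h => absurd rfl h, (mul_zero _).symm, by
    rw [mul_assoc, div_mul_cancel₀ _ hJ.ne']
    exact U4.tc_eq⟩
  obtain ⟨H₀, rH, hH⟩ := hSh.holes (Λ₀ + 1)
  obtain ⟨c, hc1, co⟩ := ILG.core hL2 hSh hM hΔ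
  obtain ⟨K, hK⟩ : ∃ K : ℕ, K = 64 * (c + 1) * L := ⟨_, rfl⟩
  obtain ⟨B₁, c₁⟩ := co n m H₀ (2 * (Λ₀ + 1) * K)
  obtain ⟨B₀, c₀⟩ := co 0 m H₀ (2 * (Λ₀ + 1) * K)
  set z : ℝ := (|Zσ| + 1) ^ n * (|Zε| + 1) ^ (m + 1) with hz
  have a1 : 1 ≤ |Zσ| + 1 := by linarith [abs_nonneg Zσ]
  have a2 : 1 ≤ |Zε| + 1 := by linarith [abs_nonneg Zε]
  have a3 : 1 ≤ (|Zσ| + 1) ^ n := one_le_pow₀ a1
  have a4 : ∀ k ≤ m + 1, |Zε ^ k| ≤ (|Zε| + 1) ^ (m + 1) := fun k hk => by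
    rw [abs_pow]
    exact (pow_le_pow_left₀ (abs_nonneg _) (by linarith) k).trans (pow_le_pow_right₀ a2 hk)
  have a5 : ∀ k ≤ m + 1, |Zε ^ k| ≤ z := fun k hk =>
    (a4 k hk).trans (le_mul_of_one_le_left (by positivity) a3)
  have a6 : ∀ k ≤ m + 1, |Zσ ^ n * Zε ^ k| ≤ z := fun k hk => by
    rw [abs_mul, abs_pow]
    exact mul_le_mul (pow_le_pow_left₀ (abs_nonneg _) (by linarith) n) (a4 k hk) (abs_nonneg _)
      (by positivity)
  have a7 : ∀ u v B : ℝ, |u| ≤ z → |v| ≤ B → |u * v| ≤ z * |B| := fun u v B h1 h2 => by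
    rw [abs_mul]
    exact mul_le_mul h1 (h2.trans (le_abs_self B)) (abs_nonneg _) (by positivity)
  have z0 : 0 ≤ z := by positivity
  have cL : (1 : ℝ) ≤ (K : ℕ) := by
    have : 0 < K := by rw [hK]; positivity
    exact_mod_cast this
  obtain ⟨δ', hδ, hψ⟩ := psi_cont m (z * |B₀| + z * |B₁|)
    (ε := ε / (K : ℝ) ^ (n + m)) (by positivity)
  obtain ⟨J₁, c₁⟩ := c₁ δ' hδ
  obtain ⟨J₀, c₀⟩ := c₀ δ' hδ
  refine ⟨64 * (c * sc L (max J₀ J₁) + q.R + 2) + rH, fun r hr Λ b x y j hb hS hΛ hs => ?_⟩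
  have s8 := sc_ge (J := max J₀ J₁) hL2
  have hx' : ∀ i, x i ∈ Λ := fun i => hs.ins (Sum.inl i) _ (by simp [zd_self])
  have hy' : ∀ k, y k ∈ Λ ∧ y k + dir (j k) ∈ Λ := fun k =>
    ⟨hs.ins (Sum.inr k) _ (by simp [zd_self]),
      hs.ins (Sum.inr k) _ ((zd_add_dir _ _).trans (by omega))⟩
  have r0' : (0 : ℝ) < r := by exact_mod_cast (by omega : 0 < r)
  by_cases ho : b = none ∧ Odd n
  · obtain ⟨rfl, hn⟩ := ho
    rw [lcor_odd hq.pot hn hx' hy', lcor_odd U1.pot_zero hn hx' hy', mul_zero, sub_zero,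
      abs_zero]
    positivity
  obtain ⟨N, n1, n2, n3⟩ := Mn.exists_scale (c := c) (J := max J₀ J₁) (M := r / 64) hL2
    hc1 (by omega)
  rw [show sc L (N + 1) = L * sc L N by unfold sc; ring] at n3
  have s9 := sc_ge (J := N) hL2
  have e1 : (Λ₀ + 1) * r = Λ₀ * r + r := by ring
  have e2 : 2 * (Λ₀ + 1) * K * sc L N = 2 * ((Λ₀ + 1) * (K * sc L N)) := by ring
  have e3 : sc L N ≤ L * sc L N := Nat.le_mul_of_pos_left _ (by omega)
  have e6 : K * sc L N = 64 * (c * (L * sc L N)) + 64 * (L * sc L N) := by rw [hK]; ring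
  have e4 : r ≤ K * sc L N := by omega
  have e5 := Nat.mul_le_mul_left (Λ₀ + 1) e4
  set T := (Λ₀ + 1) * r with hT
  have hΛ' : ∀ v ∈ Λ, zd v 0 ≤ T := fun v hv => (hΛ v hv).trans (by omega)
  have : NeZero (64 * (2 * T)) := ⟨by omega⟩
  set M := 64 * (2 * T) with hMd
  obtain ⟨fr, H, hH, a, hs', rfl, h1, hc, hfr⟩ : ∃ fr : Bool, ∃ H ≤ H₀, ∃ a,
      ∃ hs' : Fin H → Site, b = (if fr then none else some fun _ => true) ∧
      Holes Λ (2 * T) (r / 64) a hs' ∧ (fr = false → Cn M Λ a hs') ∧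
      (fr = true → H = 0 ∧ Even n) := by
    obtain ⟨H, hH, a, hs', h1, hc⟩ := hH Λ T r hS (by omega) (by omega) le_rfl hΛ'
    rcases hb with rfl | rfl
    · exact ⟨true, 0, Nat.zero_le _, a, Fin.elim0, rfl, ⟨h1.box, h1.a_le, fun i => i.elim0,
        h1.a_out, fun i => i.elim0, fun i => i.elim0, fun i => i.elim0⟩, by simp,
        fun _ => ⟨rfl, Nat.not_odd_iff_even.1 fun h => ho ⟨rfl, h⟩⟩⟩
    · exact ⟨false, H, hH, a, hs', rfl, h1, fun _ => hc M (by omega), by simp⟩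
  have hs1 := hs.mono (Nat.div_le_self r 64)
  have hs0 : Spins Λ (r / 64) (Sum.elim (Fin.elim0 : Fin 0 → Site) y) := by
    have := hs1.comp (f := Sum.map (Fin.elim0 : Fin 0 → Fin n) id)
      (Function.Injective.sumMap (fun i => i.elim0) Function.injective_id)
    have e : x ∘ (Fin.elim0 : Fin 0 → Fin n) = Fin.elim0 := funext fun i => i.elim0
    rwa [Sum.elim_comp_map, e, Function.comp_id] at this
  have d₁ := c₁ N (le_of_max_le_right n1) M Λ fr _ r _ H x y j a hs' hH hS h1 hs1 hfr n2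
    (by omega) (by omega) (by omega) rfl
  have d₀ := c₀ N (le_of_max_le_left n1) M Λ fr _ r _ H Fin.elim0 y j a hs' hH hS h1 hs0
    (fun h => ⟨(hfr h).1, Even.zero⟩) n2 (by omega) (by omega) (by omega) rfl
  simp only [Nat.cast_zero, zero_div, Real.rpow_zero, pow_zero, one_mul] at d₀
  have q1 := lcor_eq rq h1 hc (by omega) hx' hy' hfr
  have q0 := lcor_eq r0 h1 hc (by change 4 * (_ + 0 + 2) ≤ _; omega) hx' hy' hfr
  have o1 := one_le_mx (a := a) (hs := hs') y j h1.box (by omega) (fun h => (hfr h).1)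
    (ne_zero r0 h1 hc (by change 4 * (_ + 0 + 2) ≤ _; omega) fun h => (hfr h).1)
  change lcor (gibbs J 0 (fun _ => 0) _ _ _) _ _ _ = _ at q0
  rw [q1, q0]
  set ℓ : ℝ := ((sc L N : ℕ) : ℝ) with hℓ
  have l0 : 0 < ℓ := by rw [hℓ]; exact_mod_cast (by omega : 0 < sc L N)
  set w : ℝ := ℓ ^ ((n : ℝ) / 8) with hw
  have w0 : 0 < w * ℓ ^ m := by positivity
  have b0 : 0 ≤ z * |B₀| := by positivity
  have b1 : 0 ≤ z * |B₁| := by positivity
  have key := hψ _ _ (fun k => ℓ * mx q (regOf M Λ fr) a hs' y j Fin.elim0 {k})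
    (fun k => Zε * ℓ * mx par0 (regOf M Λ fr) a hs' y j Fin.elim0 {k})
    (fun t => w * ℓ ^ t.card * mx q (regOf M Λ fr) a hs' y j x t)
    (fun t => Zσ ^ n * w * (Zε * ℓ) ^ t.card * mx par0 (regOf M Λ fr) a hs' y j x t) o1
    (by
      have h := a7 _ _ _ (a5 0 (by omega)) (d₀ ∅).2
      simp only [card_empty, pow_zero, one_mul] at h
      linarith [le_abs_self (mx par0 (regOf M Λ fr) a hs' y j Fin.elim0 ∅)])
    (fun k => by
      have h := a7 _ _ _ (a5 1 (by omega)) (d₀ {k}).2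
      simp only [card_singleton, pow_one, ← mul_assoc] at h
      linarith)
    (fun t => by
      have h := a7 _ _ _ (a6 t.card ((by simpa using card_le_univ t : t.card ≤ m).trans
        (Nat.le_succ m))) (d₁ t).2
      refine le_trans (le_of_eq (congrArg _ (by ring))) (h.trans (by linarith)))
    (by simpa only [card_empty, pow_zero, one_mul] using (d₀ ∅).1)
    (fun k => by simpa only [card_singleton, pow_one] using (d₀ {k}).1) fun t => (d₁ t).1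
  rw [psi_scale, psi_scale] at key
  have rs := rescale l0 r0' cL (by rw [hℓ]; exact_mod_cast e4) n m
  generalize UL.psi (mx q (regOf M Λ fr) a hs' y j Fin.elim0 ∅) _ _ = u at key ⊢
  generalize UL.psi (mx par0 (regOf M Λ fr) a hs' y j Fin.elim0 ∅) _ _ = u₀ at key ⊢
  have e : u - Zσ ^ n * Zε ^ m * u₀ =
      (w * ℓ ^ m)⁻¹ * (w * ℓ ^ m * u - Zσ ^ n * w * (Zε * ℓ) ^ m * u₀) := by
    rw [eq_inv_mul_iff_mul_eq₀ w0.ne']
    ring
  rw [e, abs_mul, abs_of_pos (inv_pos.2 w0)]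
  refine (mul_le_mul rs key (abs_nonneg _) (by positivity)).trans (le_of_eq ?_)
  field_simp

end Vale.Agent.P144Z
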