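import Vale.Agent.P144D.I.Lat.Defs
import Vale.Agent.P144D.K.Main

/-!
The gap and the bound on the last integration for a class of regions.
-/

namespace Vale.Agent.P144Z.ILG

open Finset Matrix K

/-- `KStmt` for the class `Sh`. -/
def KG (Sh : Shp) : Prop :=
  ∀ n Λ₀ : ℕ, ∃ C Γ h : ℝ, 0 ≤ C ∧ 1 ≤ Γ ∧ 0 < h ∧ ∃ ρ₁ : ℕ, ∀ (M : ℕ) [NeZero M]
    (Λ : Finset (ℤ × ℤ)) (fr : Bool) (T r₀ r ℓ H : ℕ) (x : Fin n → ℤ × ℤ) (a : ℤ × ℤ)
    (hs : Fin H → ℤ × ℤ) (S : Finset (Fin H)), Sh Λ r₀ → Holes Λ T r a hs → Spins Λ r x →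
    (fr = true → H = 0 ∧ Even n) → ρ₁ ≤ r → 8 ≤ ℓ → ℓ ≤ r → r ≤ r₀ → r₀ ≤ T → T ≤ Λ₀ * ℓ →
    64 * T ≤ M →
      (∀ φ, φ ⬝ᵥ φ ≤ (Γ * ℓ) ^ 2 *
        ((Dm (regOf M Λ fr).pw *ᵥ φ) ⬝ᵥ (Dm (regOf M Λ fr).pw *ᵥ φ))) ∧
      ∀ (ι : Type) [Fintype ι] [DecidableEq ι] (y : ι → Tor M) (d : ι → Fin 2) (J : ℕ),
        (geoD M ((regOf M Λ fr).pw * (spinG M a x * holeG M a hs S)) y d J).LastB ℓ h
          (C * (ℓ : ℝ) ^ (-((n : ℝ) / 8)) * |Zw par0 (regOf M Λ fr).pw 1|)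

theorem kG_of {Sh : Shp} {Q : Cls} {L C : ℕ} (hG : ShOk Sh Q L C) : KG Sh := by
  have hP : PlusS := plus_K
  have hF : FreeS := free_K
  intro n Λ₀
  obtain ⟨Γ₀, hΓ₀, ρ₀, HG⟩ := hG.gap (2 * Λ₀ + 1)
  obtain ⟨C₁, hC₁, H₁⟩ := LM.lastB_gap
  obtain ⟨B, hB, HB⟩ := LM.low_mode
  set Γ : ℝ := Γ₀ * (Λ₀ + 1) with hΓd
  have hΓ : 1 ≤ Γ := one_le_mul_of_one_le_of_one_le hΓ₀ (by
    have : (0 : ℝ) ≤ Λ₀ := Nat.cast_nonneg _
    linarith)
  obtain ⟨C₂, hC₂, H₂⟩ := LM.lastB_low (n / 2) (B * (Λ₀ + 16)) Γ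
  obtain ⟨C₃, hC₃, H₃⟩ := hP n
  obtain ⟨C₄, hC₄, H₄⟩ := hF (n / 2)
  refine ⟨C₃ + C₂ * C₄, Γ, C₁ * Γ + C₂, by positivity, hΓ, by positivity, ρ₀ + 2048, ?_⟩
  intro M _ Λ fr T r₀ r ℓ H x a hs S hsh hH hx hfr hr hℓ hℓr hrr hrT hT hM
  have hsq : (Γ₀ * ((T + 1 : ℕ) : ℝ)) ^ 2 ≤ (Γ * ℓ) ^ 2 := by
    refine pow_le_pow_left₀ (by positivity) ?_ 2
    have h1 : T + 1 ≤ (Λ₀ + 1) * ℓ := by nlinarith
    have h2 : ((T + 1 : ℕ) : ℝ) ≤ (Λ₀ + 1) * ℓ := by exact_mod_cast h1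
    rw [hΓd, mul_assoc]
    exact mul_le_mul_of_nonneg_left h2 (by linarith)
  have hTr : T + 1 ≤ (2 * Λ₀ + 1) * (r - 1) := by
    have h1 : Λ₀ * ℓ ≤ Λ₀ * (2 * (r - 1)) := Nat.mul_le_mul_left _ (by omega)
    have h2 : (2 * Λ₀ + 1) * (r - 1) = Λ₀ * (2 * (r - 1)) + (r - 1) := by ring
    omega
  have gap : ∀ B : Gauge M, Str (regOf M Λ fr).pw B (r - 1) →
      (∀ e, T + 1 < tdist e.1 0 → B e = 1) → ∀ (φ : Tor M × Fin 4 → ℝ) (t : Tor M → ℝ),
      (fr = true → ∀ f, flux B f = -1 → cnr f ⬝ᵥ φ = 0) →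
      (∀ f, t f ≠ 0 → fr = true ∧ flux B f = -1) → φ ⬝ᵥ φ ≤ (Γ * ℓ) ^ 2 *
        ((Dm ((regOf M Λ fr).pw * B) *ᵥ φ - ∑ f, t f • cnr f) ⬝ᵥ
          (Dm ((regOf M Λ fr).pw * B) *ᵥ φ - ∑ f, t f • cnr f)) := by
    intro B h1 h2 φ t h3 h4
    have := HG M Λ fr B (T + 1) r₀ (r - 1) hsh h1 (fun v hv => (hH.box v hv).trans (by omega)) h2
      (by omega) (by omega) (by omega) hTr (by omega) φ t h3 h4
    rw [l2sq_univ', l2sq_univ'] at this
    exact this.trans (mul_le_mul_of_nonneg_right hsq (dot_nn _))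
  obtain ⟨s1, s2, s3, s4, -⟩ := str_reg (M := M) S hH hx hfr (by omega) (by omega)
  refine ⟨fun φ => ?_, fun ι _ _ y d J => ?_⟩
  · have := gap 1 (str_one' _ _) (fun _ _ => rfl) φ 0 (fun _ f hf => by
      simp only [flux, Pi.one_apply] at hf
      norm_num at hf) (fun f hf => absurd rfl hf)
    simpa using this
  have hW := isW_mul (regOf M Λ fr) s1.sign
  have hp := rpow_le hℓ hℓr n
  have hp0 : 0 ≤ (ℓ : ℝ) ^ (-((n : ℝ) / 8)) := by positivity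
  cases fr
  · refine lastB_mono (H₁ (geoD M _ y d J) hW ℓ hℓ Γ hΓ (fun φ => ?_) _ (by linarith)) ?_
    · have := gap _ s1 s2 φ 0 (fun h => absurd h (by simp)) (fun f hf => absurd rfl hf)
      simp only [Pi.zero_apply, zero_smul, Finset.sum_const_zero, sub_zero] at this
      exact this
    · refine (H₃ M Λ T r H x a hs S hH hx (by omega) (by omega)).trans ?_
      refine mul_le_mul_of_nonneg_right ?_ (abs_nonneg _)
      exact mul_le_mul (by nlinarith [mul_nonneg (zero_le_one.trans hC₂) hC₄]) hp (by positivity)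
        (by positivity)
  · obtain ⟨-, hev⟩ := hfr rfl
    have hn : n / 2 * 2 = n := Nat.div_mul_cancel hev.two_dvd
    let e : Fin (n / 2) × Fin 2 ≃ Fin n := finProdFinEquiv.trans (finCongr hn)
    have s4' := s4 rfl
    have hx' : Spins Λ r (fun b => x (e b)) :=
      ⟨fun i => hx.ins (e i), fun i i' h => hx.sep _ _ (e.injective.ne h)⟩
    have hfl : ∀ b, flux (spinG M a x * holeG M a hs S) (prj M (x (e b))) = -1 := fun b =>
      (s4' _).2 ⟨_, rfl⟩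
    have hxT : ∀ i, zd (x i) 0 ≤ T := fun i => hH.box _ (hx.ins i _ (by simp [zd]))
    have hne : ∀ b b', b ≠ b' → prj M (x (e b)) ≠ prj M (x (e b')) := by
      intro b b' hb h
      have h1 := hx'.sep b b' hb
      have h2 := hxT (e b)
      have h3 := hxT (e b')
      have h4 : prj M (x (e b) - x (e b')) = 0 := by rw [G.prj_sub, h, sub_self]
      simp only [prj, Prod.mk_eq_zero, ZMod.intCast_zmod_eq_zero_iff_dvd, Prod.fst_sub,
        Prod.snd_sub] at h4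
      simp only [zd, Prod.fst_zero, Prod.snd_zero, sub_zero] at h1 h2 h3
      have h5 := Int.eq_zero_of_dvd_of_natAbs_lt_natAbs h4.1 (by omega)
      have h6 := Int.eq_zero_of_dvd_of_natAbs_lt_natAbs h4.2 (by omega)
      omega
    have hu : ∀ b, ∃ u, SuppIn u (prj M (x (e b))) (r / 8) ∧ cnr (prj M (x (e b))) ⬝ᵥ u = 1 ∧
        u ⬝ᵥ u ≤ B * (r / 8 : ℕ) ∧
        (Dm ((regOf M Λ true).pw * (spinG M a x * holeG M a hs S)) *ᵥ u) ⬝ᵥ
        (Dm ((regOf M Λ true).pw * (spinG M a x * holeG M a hs S)) *ᵥ u) * (r / 8 : ℕ) ≤ B :=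
      fun b => HB M _ hW _ (r / 8) (by omega) (by omega) ((s3 _).2 ⟨_, rfl⟩) fun f' h1 h2 =>
        flux_near s1 (hfl b) ((s3 _).2 ⟨_, rfl⟩) (by omega) h1 (by omega)
    choose u u1 u2 u3 u4 using hu
    have hΛ : (0 : ℝ) ≤ Λ₀ := Nat.cast_nonneg _
    refine lastB_mono (H₂ (geoD M _ y d J) hW ℓ hℓ (fun b => cnr (prj M (x (e b)))) u
      (fun b b' => ?_) (fun b => ?_) (fun b => ?_) (fun φ hφ t => ?_) _
      (by nlinarith [mul_nonneg (zero_le_one.trans hC₁) (zero_le_one.trans hΓ)])) ?_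
    · split_ifs with h
      · rw [h]; exact u2 b'
      · refine cnr_dot (u1 b') ?_
        exact lt_of_le_of_lt (by omega) (s1.sep _ _ (hfl b) (hfl b') (hne b b' h))
    · refine (u3 b).trans ?_
      have h1 : r / 8 ≤ (Λ₀ + 16) * ℓ := by
        have : r / 8 ≤ r := Nat.div_le_self _ _
        nlinarith
      have h2 : ((r / 8 : ℕ) : ℝ) ≤ (Λ₀ + 16) * ℓ := by exact_mod_cast h1
      rw [mul_assoc]
      exact mul_le_mul_of_nonneg_left h2 (by linarith)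
    · have h2 : (ℓ : ℝ) ≤ 16 * ((r / 8 : ℕ) : ℝ) := by exact_mod_cast (by omega : ℓ ≤ 16 * (r / 8))
      have h3 := u4 b
      refine (mul_le_mul_of_nonneg_left h2 (dot_nn _)).trans ?_
      have h4 : 0 ≤ B * Λ₀ := by positivity
      rw [mul_left_comm]
      exact (mul_le_mul_of_nonneg_left h3 (by norm_num)).trans (by linarith)
    · have h1 := gap _ s1 s2 φ (fun f => ∑ b, if f = prj M (x (e b)) then t b else 0)
        (fun _ f hf => by
          obtain ⟨i, rfl⟩ := (s4' f).1 hf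
          have := hφ (e.symm i)
          rw [e.apply_symm_apply] at this
          exact this)
        (fun f hf => by
          obtain ⟨b, -, hb⟩ := Finset.exists_ne_zero_of_sum_ne_zero hf
          have : f = prj M (x (e b)) := by
            by_contra h
            exact hb (if_neg h)
          exact ⟨rfl, this ▸ hfl b⟩)
      have h2 : (∑ f, (∑ b, if f = prj M (x (e b)) then t b else 0) • cnr f) =
          ∑ b, t b • cnr (prj M (x (e b))) := by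
        simp only [Finset.sum_smul, ite_smul, zero_smul]
        rw [Finset.sum_comm]
        simp
      rw [h2] at h1
      exact h1
    · have h1 := H₄ M Λ T r (fun b => x (e b)) _ s1.sign hH.box hx' (by omega) (by omega) ι y d J
      have h2 : ((2 * (n / 2) : ℕ) : ℝ) = n := by rw [mul_comm, hn]
      rw [h2] at h1
      refine (mul_le_mul_of_nonneg_left h1 (by linarith)).trans ?_
      rw [← mul_assoc, ← mul_assoc]
      refine mul_le_mul_of_nonneg_right ?_ (abs_nonneg _)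
      exact mul_le_mul (by linarith) hp (by positivity) (by positivity)

end Vale.Agent.P144Z.ILG
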