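import Vale.Agent.P144D.I.Lat.Alg
import Vale.Agent.P144Z.R7.Main

/-!
Universality for finite sets of sites with sign changes, for any class of sets.
-/

namespace Vale.Agent.P144Z

open Finset Matrix P144 UL

theorem DeepOK.mono {Λ : Finset Site} {C r r' : ℕ} (h : DeepOK Λ C r) (hr : r' ≤ r) :
    DeepOK Λ C r' :=
  ⟨fun d h1 h2 => h.cork d h1 (h2.trans hr), fun d s h1 h2 h3 => h.conn d s h1 h2 (h3.trans hr),
    fun s h1 h2 => h.out s h1 (h2.trans hr)⟩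

namespace ILat

/-- The natural size of a moment. -/
noncomputable def wS (l ν : ℝ) (n k : ℕ) : ℝ := 1 / l ^ k * (l ^ (-((n : ℝ) / 8)) * ν)

variable {M : ℕ} [NeZero M] {I : Finset (Tor M)} {H k m : ℕ} {a : Site} {hs : Fin H → Site}
  {s : Fin k → Tor M × Fin 4} {ε : Finset (Fin H) → ℝ} {ς : Site → ℝ} {y : Fin m → Site}
  {j : Fin m → Fin 2} {l ν : ℝ}

variable (I a hs ε s ς y j l ν) in
/-- The rescaled moments. -/
noncomputable def fS (q : Par) (O : Fin k → (Tor M × Fin 2 → Bool) → ℝ) {n : ℕ} (x : Fin n → Site)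
    (t : Finset (Fin m)) : ℝ :=
  (wS l ν n t.card)⁻¹ * ((∏ i, ς (x i)) * mxJ q I a hs ε s O y j x t)

theorem abs_sign (hς : IsSign ς) {n : ℕ} (x : Fin n → Site) : |∏ i, ς (x i)| = 1 := by
  rw [abs_prod]
  exact prod_eq_one fun i _ => by rcases hς (x i) with h | h <;> simp [h]

theorem fS_le {H₀ : ℕ} (hH : H ≤ H₀) (hε : IsSign ε) (hς : IsSign ς) (hl : 0 < l) (hν : 0 < ν)
    {q : Par} {O : Fin k → (Tor M × Fin 2 → Bool) → ℝ} {n : ℕ} {x : Fin n → Site}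
    {t : Finset (Fin m)} {ζ Zσ Zε δ B : ℝ} (hδ : 0 ≤ δ) (h : ∀ S,
      |mixJ q (pwI I) (spinG M a x * holeG M a hs S) s O (fun i : t => yE M y j i)
          (fun i : t => dE y j i) - ζ * Zσ ^ n * Zε ^ t.card *
          mixJ par0 (pwI I) (spinG M a x * holeG M a hs S) s 1 (fun i : t => yE M y j i)
            (fun i : t => dE y j i)| ≤ δ / l ^ t.card * (l ^ (-((n : ℝ) / 8)) * ν) ∧
        |mixJ par0 (pwI I) (spinG M a x * holeG M a hs S) s 1 (fun i : t => yE M y j i)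
          (fun i : t => dE y j i)| ≤ B / l ^ t.card * (l ^ (-((n : ℝ) / 8)) * ν)) :
    |fS I a hs s ε ς y j l ν q O x t -
      ζ * (Zσ ^ n * Zε ^ t.card * fS I a hs s ε ς y j l ν par0 1 x t)| ≤ 2 ^ H₀ * δ ∧
      |fS I a hs s ε ς y j l ν par0 1 x t| ≤ 2 ^ H₀ * |B| := by
  have w0 : 0 < wS l ν n t.card := by unfold wS; positivity
  have e : ∀ u : ℝ, u / l ^ t.card * (l ^ (-((n : ℝ) / 8)) * ν) = u * wS l ν n t.card := fun u => by
    unfold wS; ring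
  simp only [e] at h
  refine ⟨le_trans (le_of_eq (congrArg _ ?_)) (sum_le hH hε w0 (abs_sign hς x) le_rfl hδ
    fun S => (h S).1), sum_le hH hε w0 (abs_sign hς x) (le_abs_self B) (abs_nonneg B)
      fun S => (h S).2⟩
  simp only [fS, mxJ, mul_sub, sum_sub_distrib, mul_sum]
  exact congrArg _ (sum_congr rfl fun S _ => by ring)

theorem psi_fS (hl : 0 < l) (hν : 0 < ν) (q : Par) (O : Fin k → (Tor M × Fin 2 → Bool) → ℝ) {n : ℕ}
    (x : Fin n → Site) : UL.psi (fS I a hs s ε ς y j l ν q O Fin.elim0 ∅)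
      (fun i => fS I a hs s ε ς y j l ν q O Fin.elim0 {i}) (fS I a hs s ε ς y j l ν q O x) =
      l ^ ((n : ℝ) / 8) * l ^ m * UL.psi (mxJ q I a hs ε s O y j Fin.elim0 ∅)
        (fun i => mxJ q I a hs ε s O y j Fin.elim0 {i})
        fun t => (∏ i, ς (x i)) * mxJ q I a hs ε s O y j x t := by
  rw [← psi_scale, ← psi_hom (inv_ne_zero hν.ne') (mxJ q I a hs ε s O y j Fin.elim0 ∅)]
  congr 1
  · simp [fS, wS]
  · funext i
    simp only [fS, wS, card_singleton, pow_one, Nat.cast_zero, zero_div, neg_zero, Real.rpow_zero,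
      univ_eq_empty, prod_empty]
    field_simp
  · funext t
    simp only [fS, wS, Real.rpow_neg hl.le]
    field_simp

theorem fS_empty {b : Site → Bool} {κ₀ : ℝ} (h : Sel I a hs b s ε ς κ₀) (hy : ∀ i, yE M y j i ∈ I)
    (hν : 0 < ν) (q : Par) (O : Fin k → (Tor M × Fin 2 → Bool) → ℝ) :
    |fS I a hs s ε ς y j l ν q O Fin.elim0 ∅| =
      |κ₀| / (ν * |Zw q (pwI I) 1|) * |sB q I b O 1| := by
  simp only [fS, wS, mxJ_empty h hy, card_empty, pow_zero, Nat.cast_zero, zero_div, neg_zero,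
    Real.rpow_zero, univ_eq_empty, prod_empty, div_one, one_mul, abs_mul, abs_div, abs_inv,
    abs_of_pos hν]
  ring

theorem fS_ge {b : Site → Bool} {κ₀ : ℝ} (h : Sel I a hs b s ε ς κ₀) (hy : ∀ i, yE M y j i ∈ I)
    (hν : 0 < ν) {q : Par} (hx : 0 ≤ q.x) {O : Fin k → (Tor M × Fin 2 → Bool) → ℝ} {c τ : ℝ}
    (hc : 0 ≤ c) (hO : ∀ i n, c ≤ O i n) (hτ : τ ≤ c ^ k) :
    τ * |fS I a hs s ε ς y j l ν q 1 Fin.elim0 ∅| ≤ |fS I a hs s ε ς y j l ν q O Fin.elim0 ∅| := by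
  obtain ⟨h1, h2⟩ := sB_ge (I := I) (b := b) hx hc hO
  rw [fS_empty h hy hν, fS_empty h hy hν, abs_of_nonneg h1, mul_left_comm]
  exact mul_le_mul_of_nonneg_left
    ((mul_le_mul_of_nonneg_right hτ h1).trans (h2.trans (le_abs_self _))) (by positivity)

end ILat

open ILat in
theorem latOKG_of {Cl : Finset Site → ℕ → Prop} {q : Par} {Zσ Zε Zσ' Zε' c' η κ : ℝ}
    {L Cd C₁ : ℕ} (hL : 2 ≤ L) (hC₁ : 17 ≤ C₁) (hq : q.Ok) (hsm : q.Small 1)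
    (h1 : LatMJ Cl q Zσ Zε L c' η) (h0 : LatMJ Cl par0 Zσ' Zε' L c' η) (hMark : MarkStmt)
    (hA : SecA) (hB : SecB)
    (hH : ∀ Λ₀ : ℕ, ∃ H₀ : ℕ, ∀ (Λ : Finset Site) (T r : ℕ), Cl Λ r → 64 ≤ r → r ≤ T →
      T ≤ Λ₀ * r → (∀ v ∈ Λ, zd v 0 ≤ T) → ∃ H ≤ H₀, ∃ (a : Site) (hs : Fin H → Site),
        Holes Λ (2 * T) (r / 64) a hs ∧ ∀ (M : ℕ) [NeZero M], 8 * T ≤ M → Cn M Λ a hs)
    (hD : ∀ Λ r, Cl Λ r → DeepOK Λ Cd r)
    (hMk : ∀ (M : ℕ) [NeZero M] (I : Finset (Tor M)) (r J : ℕ) (z : Tor M) (e : Fin 4),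
      MkT I κ r z e → 4 * r ≤ M → 1 ≤ J → C₁ * sc L J ≤ r →
        ∃ u ν, MkCh (pwI I) L J (z, e + 2) u ν c' η)
    (hLB : ∀ N : ℕ, ∃ c₀ > 0, ∃ J₀ : ℕ, ∀ J ≥ J₀, ∀ (M : ℕ) [NeZero M] (Λ : Finset (ℤ × ℤ))
      (T r H k : ℕ) (a : ℤ × ℤ) (hs : Fin H → ℤ × ℤ) (x : Fin k → ℤ × ℤ) (e : Fin k → Fin 4)
      (u : Fin k → ℕ → Tor M × Fin 4 → ℝ) (ν : Fin k → ℕ → ℝ) (n₀ : Tor M × Fin 2 → Bool),
      DeepOK Λ Cd r → (∀ v ∈ Λ, zd v 0 ≤ T) → prj M a ∉ Λ.image (prj M) →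
      (∀ i, prj M (hs i) ∉ Λ.image (prj M)) → UL.Cn M Λ a hs → H ≤ N → k ≤ N → MkG Λ κ r x e →
      C₁ * sc L J ≤ r → r ≤ T → T ≤ N * sc L J → 64 * T ≤ M →
      (∀ i, MkCh (pwI (Λ.image (prj M))) L J (mkS M x e i) (u i) (ν i) c' η) →
      (∀ e', n₀ e' = true → pwI (Λ.image (prj M)) e' = 1) →
      (∀ v, dgr n₀ v = -1 ↔ ∃ i, v = prj M (x i)) →
        c₀ * (∏ i, ν i J) * Zw par0 (pwI (Λ.image (prj M))) 1 ≤
          Yn (Λ.image (prj M)) (tc • pwI (Λ.image (prj M))) n₀) :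
    LatOKG Cl q Zσ Zε κ := by
  intro J lam β hJ hμ hx α' κ' hκ0 hκ hα n m Λ₀ ε hε
  have rq : Rel J lam β q := ⟨hq.pot, hq.range, hμ, hx⟩
  have r0 : Rel J 0 (Kc / J) par0 := ⟨U1.pot_zero, fun _ h => absurd rfl h, (mul_zero _).symm, by
    rw [mul_assoc, div_mul_cancel₀ _ hJ.ne']
    exact U4.tc_eq⟩
  have k0 := crit_par0 L 1 1 zero_le_one zero_le_one
  obtain ⟨K, hMark⟩ := hMark α' (by linarith) (2 * q.R + 4)
  obtain ⟨K', C, hC, hB⟩ := hB q.R K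
  obtain ⟨k₀, hMark⟩ := hMark Λ₀
  obtain ⟨θ₁, hθ₁, h1⟩ := h1 K'
  obtain ⟨θ₀, hθ₀, h0⟩ := h0 K'
  obtain ⟨H₀, hH⟩ := hH (Λ₀ + 1)
  set Λ₁ := 2 * (Λ₀ + 1) * (128 * C₁ * L) with hΛ₁
  obtain ⟨B₁, h1⟩ := h1 n m H₀ k₀ Λ₁
  obtain ⟨B₀, h0⟩ := h0 n m H₀ k₀ Λ₁
  obtain ⟨c₀, hc₀, JL, hLB⟩ := hLB (H₀ + k₀ + Λ₁)
  set θ : ℝ := min (min θ₁ θ₀) (1 / 2) with hθ
  have θ0 : 0 < θ := by positivity
  have θ1 : θ / C * C⁻¹ ≤ 1 / 2 := by
    have : θ / C ≤ θ := div_le_self θ0.le hC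
    have := mul_le_mul this (inv_le_one_of_one_le₀ hC) (by positivity) θ0.le
    linarith [min_le_right (min θ₁ θ₀) (1 / 2 : ℝ)]
  have cL : (1 : ℝ) ≤ (128 * C₁ * L : ℕ) := by
    exact_mod_cast Nat.mul_pos (by omega : 0 < 128 * C₁) (by omega : 0 < L)
  obtain ⟨δ, hδ, hfin⟩ := fin m (2 ^ H₀ * |B₁|) (Zσ ^ n) Zε (Zσ' ^ n) Zε' hc₀
    (τ := (θ / C * C⁻¹) ^ k₀) (ε := ε / ((128 * C₁ * L : ℕ) : ℝ) ^ (n + m)) (by positivity)
    (pow_le_one₀ (by positivity) (by linarith)) (by positivity)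
  obtain ⟨J₁, h1⟩ := h1 (δ / 2 ^ H₀) (by positivity)
  obtain ⟨J₀, h0⟩ := h0 (δ / 2 ^ H₀) (by positivity)
  refine ⟨64 * (C₁ * sc L (J₀ + J₁ + JL + 1) + q.R + K + K' + 2),
    fun r hr Λ b x y j hS hb hΛ hs => ?_⟩
  have hx' : ∀ i, x i ∈ Λ := fun i => hs.ins (Sum.inl i) _ (by simp [zd_self])
  have hy' : ∀ k, y k ∈ Λ ∧ y k + dir (j k) ∈ Λ := fun k =>
    ⟨hs.ins (Sum.inr k) _ (by simp [zd_self]),
      hs.ins (Sum.inr k) _ ((zd_add_dir _ _).trans (by omega))⟩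
  have r0' : (0 : ℝ) < r := by exact_mod_cast (by omega : 0 < r)
  obtain ⟨N, n1, n2, n3⟩ := Mn.exists_scale (c := C₁) (J := J₀ + J₁ + JL + 1) (M := r / 64) hL
    (by omega) (by omega)
  rw [show C₁ * sc L (N + 1) = C₁ * L * sc L N by unfold sc; ring] at n3
  have s9 := sc_ge (J := N) hL
  have e0 : 17 * sc L N ≤ C₁ * sc L N := Nat.mul_le_mul_right _ hC₁
  have e1 : (Λ₀ + 1) * r = Λ₀ * r + r := by ring
  have e2 : Λ₁ * sc L N = 2 * ((Λ₀ + 1) * (128 * (C₁ * L * sc L N))) := by rw [hΛ₁]; ring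
  have e3 : C₁ * 1 * sc L N ≤ C₁ * L * sc L N := by gcongr; omega
  have e4 : r ≤ 128 * (C₁ * L * sc L N) := by omega
  have e5 := Nat.mul_le_mul_left (Λ₀ + 1) e4
  have e6 : (H₀ + k₀ + Λ₁) * sc L N = (H₀ + k₀) * sc L N + Λ₁ * sc L N := by ring
  set T := (Λ₀ + 1) * r with hT
  have hΛ' : ∀ v ∈ Λ, zd v 0 ≤ T := fun v hv => (hΛ v hv).trans (by omega)
  have : NeZero (64 * (2 * T)) := ⟨by omega⟩
  set M := 64 * (2 * T) with hMd
  obtain ⟨H, hH, a, hs', g1, gc⟩ := hH Λ T r hS (by omega) (by omega) le_rfl hΛ'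
  replace gc := gc M (by omega)
  obtain ⟨k, hk, p, e, b', mg, mb⟩ := hMark κ' hκ0 hα r (by omega) Λ b hb hΛ
  have mg' : MkG Λ κ (r / 64) p e := mg.mono hκ (by omega)
  have tr : ∀ i, Touch Λ (p i) ∧ RemE Λ (p i) (e i + 2) := fun i => ⟨(mg.mk1 i).touch, (mg.mk1 i).rem⟩
  choose u ν hch using fun i => hMk M _ _ N _ _ ((mg'.mk1 i).mkT' g1.box (by omega)) (by omega)
    (by omega) n2
  have md := mg'.mkDat (M := M) g1.box (by omega) (L := L) (J := N) (by omega) hch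
  obtain ⟨⟨ε', ς, κ₀, hε', hς, hκ₀, sel⟩, n₀, p1, p2, p3⟩ :=
    hA M Λ _ _ H k a hs' p e b' g1 gc mg.injective tr mb.wall (by omega)
  have sp : ∀ i i', i ≠ i' → 2 * K' < zd (p i) (p i') := fun i i' h => by
    have := mg.sep i i' h
    omega
  obtain ⟨O₁, l₁, o₁, G₁⟩ := hB J lam β q rq le_rfl hq.x_lo hq.x_hi hsm M Λ _ k p e b b' g1.box
    (by omega) tr sp mb
  obtain ⟨O₀, l₀, o₀, G₀⟩ := hB J 0 (Kc / J) par0 r0 (Nat.zero_le _) k0.ok.x_lo k0.ok.x_hi k0.small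
    M Λ _ k p e b b' g1.box (by omega) tr sp mb
  set I := Λ.image (prj M) with hI
  set s := mkS M p e with hsd
  replace sel : Sel I a hs' b' s ε' ς κ₀ := sel
  have hyI : ∀ i, yE M y j i ∈ I := fun i => mem_image_of_mem _ (hy' i).2
  have κ0 : κ₀ ≠ 0 := fun h => by
    rw [h, abs_zero] at hκ₀
    exact (pow_pos two_pos H).ne hκ₀
  have zq : ∀ {J lam β : ℝ} {q : Par}, Rel J lam β q → 4 * (2 * T + q.R + 2) ≤ M →
      Zw q (pwI I) 1 ≠ 0 := fun hq hM => by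
    have := ne_zero (fr := false) hq g1 (fun _ => gc) hM (by simp)
    rwa [DC.cor_plus (by simp [regOf]), ZwC_zero] at this
  have z0 := zq r0 (by change 4 * (_ + 0 + 2) ≤ _; omega)
  have gs : ∀ {J lam β : ℝ} {q : Par} {O : Fin k → (Tor M × Fin 2 → Bool) → ℝ},
      (∀ F : Config → ℝ, (∀ σ σ', (∀ v ∈ Λ, σ v = σ' v) → F σ = F σ') →
        gibbs J lam q.V β (some b) Λ F = sB q I b' O (fun σ => F (per M σ)) / sB q I b' O 1) →
      Zw q (pwI I) 1 ≠ 0 → lcor (gibbs J lam q.V β (some b) Λ) x y j =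
        UL.psi (mxJ q I a hs' ε' s (fun i n => θ / C * O i n) y j Fin.elim0 ∅)
          (fun i => mxJ q I a hs' ε' s (fun i n => θ / C * O i n) y j Fin.elim0 {i})
          fun t => (∏ i, ς (x i)) * mxJ q I a hs' ε' s (fun i n => θ / C * O i n) y j x t :=
    fun h hZ => lcor_eq sel hς κ0 hZ (fun F hF => by
      rw [sB_smul, sB_smul, mul_div_mul_left _ _ (by positivity)]
      exact h F hF) hyI hx' hy'
  have q1 := gs (O := O₁) (fun F hF => by simpa only [sB, Pi.one_apply, one_mul] using G₁ F hF)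
    (zq rq (by omega))
  have q0 := gs (O := O₀) (fun F hF => by simpa only [sB, Pi.one_apply, one_mul] using G₀ F hF) z0
  change lcor (gibbs J 0 (fun _ => 0) _ _ _) _ _ _ = _ at q0
  have hs1 := hs.mono (Nat.div_le_self r 64)
  have hs0 : Spins Λ (r / 64) (Sum.elim (Fin.elim0 : Fin 0 → Site) y) := by
    have := hs1.comp (f := Sum.map (Fin.elim0 : Fin 0 → Fin n) id)
      (Function.Injective.sumMap (fun i => i.elim0) Function.injective_id)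
    have e : x ∘ (Fin.elim0 : Fin 0 → Fin n) = Fin.elim0 := funext fun i => i.elim0
    rwa [Sum.elim_comp_map, e, Function.comp_id] at this
  have d₁ := fun o O => h1 N (by omega) M Λ _ r H k a hs' s u ν o O hH hk hS g1 (by omega) (by omega)
    (by omega) rfl md
  have d₀ := fun o O => h0 N (by omega) M Λ _ r H k a hs' s u ν o O hH hk hS g1 (by omega) (by omega)
    (by omega) rfl md
  have sO : ∀ {O : Fin k → (Tor M × Fin 2 → Bool) → ℝ}, (∀ i n, C⁻¹ ≤ O i n ∧ O i n ≤ C) →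
      ∀ i n, |θ / C * O i n - 0| ≤ θ ∧ θ / C * C⁻¹ ≤ θ / C * O i n := fun h i n => by
    have t1 : 0 ≤ θ / C := by positivity
    have t2 := mul_le_mul_of_nonneg_left (h i n).2 t1
    have t3 := mul_le_mul_of_nonneg_left (h i n).1 t1
    rw [div_mul_cancel₀ _ (by positivity)] at t2
    rw [sub_zero, abs_of_nonneg (le_trans (by positivity) t3)]
    exact ⟨t2, t3⟩
  have θ2 : θ ≤ θ₁ := (min_le_left _ _).trans (min_le_left _ _)
  have θ3 : θ ≤ θ₀ := (min_le_left _ _).trans (min_le_right _ _)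
  obtain ⟨z₁, a₁, b₁⟩ := d₁ 0 (fun i n => θ / C * O₁ i n) (fun i n n' h => congrArg _ (l₁ i n n' h))
    (by simp) fun i n => (sO o₁ i n).1.trans θ2
  obtain ⟨z₂, a₂, b₂⟩ := d₁ 1 1 (fun _ _ _ _ => rfl) (by simp) fun i n => by simpa using hθ₁.le
  obtain ⟨z₃, a₃, b₃⟩ := d₀ 0 (fun i n => θ / C * O₀ i n) (fun i n n' h => congrArg _ (l₀ i n n' h))
    (by simp) fun i n => (sO o₀ i n).1.trans θ3
  obtain ⟨z₄, a₄, b₄⟩ := d₀ 1 1 (fun _ _ _ _ => rfl) (by simp) fun i n => by simpa using hθ₀.le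
  set ℓ : ℝ := ((sc L N : ℕ) : ℝ) with hℓ
  have l0 : 0 < ℓ := by rw [hℓ]; exact_mod_cast (by omega : 0 < sc L N)
  have ν0 : 0 < ∏ i, ν i N := prod_pos fun i _ => (hch i).nu_pos le_rfl
  have δ0 : 0 ≤ δ / 2 ^ H₀ := by positivity
  have δ1 : 2 ^ H₀ * (δ / 2 ^ H₀) = δ := by field_simp
  have f0 := fun {q O ζ Zε B} t h => fS_le (I := I) (a := a) (hs := hs') (s := s) (y := y)
    (j := j) (q := q) (O := O) (x := Fin.elim0) (t := t) (ζ := ζ) (Zσ := 1) (Zε := Zε) (B := B) hH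
    hε' hς l0 ν0 δ0 h
  have f1 := fun {q O ζ Zσ Zε B} t h => fS_le (I := I) (a := a) (hs := hs') (s := s) (y := y)
    (j := j) (q := q) (O := O) (x := x) (t := t) (ζ := ζ) (Zσ := Zσ) (Zε := Zε) (B := B) hH
    hε' hς l0 ν0 δ0 h
  simp only [δ1, pow_zero, one_mul] at f0 f1
  have τ1 : (θ / C * C⁻¹) ^ k₀ ≤ (θ / C * C⁻¹) ^ k :=
    pow_le_pow_of_le_one (by positivity) (by linarith) hk
  have τ2 : (θ / C * C⁻¹) ^ k₀ ≤ (1 / 2) ^ k₀ := pow_le_pow_left₀ (by positivity) θ1 _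
  have lb : c₀ ≤ |fS I a hs' s ε' ς y j ℓ (∏ i, ν i N) par0 1 Fin.elim0 ∅| := by
    have t1 := hLB N (by omega) M Λ _ (r / 64) H k a hs' p e u ν n₀ ((hD Λ r hS).mono (by omega))
      g1.box (not_mem_image g1.box (by omega) g1.a_le (g1.a_out a (by simp [zd_self])))
      (fun i => not_mem_image g1.box (by omega) (g1.h_le i) (g1.h_out i _ (by simp [zd_self]))) gc
      (by omega) (by omega) mg' n2 (by omega) (by omega) le_rfl hch p1 p2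
    have t2 : sB par0 I b' (1 : Fin k → _) 1 = Yn I (tc • pwI I) n₀ := by
      simpa only [sB, Pi.one_apply, one_mul] using p3
    have t3 : 0 ≤ Zw par0 (pwI I) 1 := by
      rw [show Zw par0 (pwI I) 1 = _ from H2D.Zw_eq_one (H2D.sec_pw g1.box (by omega))]
      exact mul_nonneg (by norm_num) (sum_nonneg fun σ _ =>
        H2D.wt_nonneg (H2D.pw_nonneg Λ) H2D.tc_pos.le _)
    have t4 : 0 < Zw par0 (pwI I) 1 := t3.lt_of_ne' z0
    have t5 : (1 : ℝ) ≤ 2 ^ H := one_le_pow₀ one_le_two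
    rw [fS_empty sel hyI ν0, t2, hκ₀, abs_of_pos t4, div_mul_eq_mul_div, le_div_iff₀ (by positivity),
      ← mul_assoc]
    exact (t1.trans (le_abs_self _)).trans (le_mul_of_one_le_left (abs_nonneg _) t5)
  have key := hfin _ _ _ _ _ _ _ _ _ _ _ _
    (fun t => ⟨(f0 t (by simpa only [pow_zero] using b₁ 0 _ y j (Or.inl rfl) hs0 t)).1,
      (f1 t (b₁ n x y j (Or.inr rfl) hs1 t)).1⟩)
    (fun t => ⟨(f0 t (by simpa only [pow_zero] using b₂ 0 _ y j (Or.inl rfl) hs0 t)).1,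
      (f1 t (b₂ n x y j (Or.inr rfl) hs1 t)).1⟩)
    (fun t => ⟨(f0 t (by simpa only [pow_zero] using b₃ 0 _ y j (Or.inl rfl) hs0 t)).1,
      (f1 t (b₃ n x y j (Or.inr rfl) hs1 t)).1⟩)
    (fun t => ⟨(f0 t (by simpa only [pow_zero] using b₄ 0 _ y j (Or.inl rfl) hs0 t)).1,
      (f1 t (b₄ n x y j (Or.inr rfl) hs1 t)).1⟩)
    (τ2.trans (prod_z hk a₂ a₁).1) (τ2.trans (prod_z hk a₄ a₃).1) (prod_z hk a₄ a₃).2 lb
    (fun t => ⟨(f0 t (by simpa only [pow_zero] using b₁ 0 _ y j (Or.inl rfl) hs0 t)).2,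
      (f1 t (b₁ n x y j (Or.inr rfl) hs1 t)).2⟩)
    (fS_ge sel hyI ν0 (by linarith [hq.x_lo]) (by positivity) (fun i n => (sO o₁ i n).2) τ1)
    (fS_ge sel hyI ν0 (by linarith [k0.ok.x_lo]) (by positivity) (fun i n => (sO o₀ i n).2) τ1)
  rw [psi_fS l0 ν0, psi_fS l0 ν0, ← q1, ← q0] at key
  have rs := rescale l0 r0' cL (by
    rw [hℓ]
    exact_mod_cast (by rwa [mul_assoc, mul_assoc, ← mul_assoc C₁])) n m
  generalize lcor (gibbs J lam _ _ _ _) _ _ _ = v at key ⊢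
  generalize lcor (gibbs J 0 _ _ _ _) _ _ _ = v₀ at key ⊢
  have w0 : 0 < ℓ ^ ((n : ℝ) / 8) * ℓ ^ m := by positivity
  generalize ℓ ^ ((n : ℝ) / 8) * ℓ ^ m = w at key rs w0
  have e : v - Zσ ^ n * Zε ^ m * v₀ = w⁻¹ * (w * v - Zσ ^ n * Zε ^ m * (w * v₀)) := by
    field_simp
  rw [e, abs_mul, abs_of_pos (inv_pos.2 w0)]
  refine (mul_le_mul rs key (abs_nonneg _) (by positivity)).trans (le_of_eq ?_)
  field_simp

end Vale.Agent.P144Z
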