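import Vale.Agent.P144D.I.Conv
import Vale.Agent.P144D.U.Lat

/-!
The correlations with sign changes as sums over sectors.
-/

namespace Vale.Agent.P144Z.ILat

open Finset P144 UL

variable {M : ℕ} [NeZero M]

/-- The signed sum of the mixed correlations with insertions over the sectors. -/
noncomputable def mxJ (q : Par) (I : Finset (Tor M)) {H : ℕ} (a : Site) (hs : Fin H → Site)
    (ε : Finset (Fin H) → ℝ) {k : ℕ} (s : Fin k → Tor M × Fin 4)
    (O : Fin k → (Tor M × Fin 2 → Bool) → ℝ) {m : ℕ} (y : Fin m → Site) (j : Fin m → Fin 2)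
    {n : ℕ} (x : Fin n → Site) (t : Finset (Fin m)) : ℝ :=
  ∑ S, ε S * mixJ q (pwI I) (spinG M a x * holeG M a hs S) s O (fun i : t => yE M y j i)
    fun i : t => dE y j i

open Classical in
/-- The sum over the spins with outer values `b`. -/
noncomputable def sB (q : Par) (I : Finset (Tor M)) (b : Site → Bool) {k : ℕ}
    (O : Fin k → (Tor M × Fin 2 → Bool) → ℝ) (F : (Tor M → Bool) → ℝ) : ℝ :=
  ∑ σ : Tor M → Bool, if OutB I b σ then F σ * wJ q I O σ else 0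

open Classical in
/-- The sum over the sectors selects the boundary condition. -/
def Sel (I : Finset (Tor M)) {H : ℕ} (a : Site) (hs : Fin H → Site) (b : Site → Bool) {k : ℕ}
    (s : Fin k → Tor M × Fin 4) (ε : Finset (Fin H) → ℝ) (ς : Site → ℝ) (κ₀ : ℝ) : Prop :=
  ∀ (q : Par) (O : Fin k → (Tor M × Fin 2 → Bool) → ℝ) (n : ℕ) (z : Fin n → ℤ × ℤ)
    (Φ : (Tor M × Fin 2 → Bool) → ℝ),
    ∑ S, ε S * ZJ q (pwI I * (spinG M a z * holeG M a hs S)) s O Φ =
      κ₀ * (∏ i, ς (z i)) * ∑ σ : Tor M → Bool, if OutB I b σ then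
        (∏ i, sp (σ (prj M (z i)))) * wJ q I O σ * Φ (nOf I σ) else 0

variable {q : Par} {I : Finset (Tor M)} {H k m n : ℕ} {a : Site} {hs : Fin H → Site}
  {b : Site → Bool} {s : Fin k → Tor M × Fin 4} {ε : Finset (Fin H) → ℝ} {ς : Site → ℝ} {κ₀ : ℝ}
  {O : Fin k → (Tor M × Fin 2 → Bool) → ℝ} {y : Fin m → Site} {j : Fin m → Fin 2}

theorem wJ_smul (c : ℝ) (σ : Tor M → Bool) :
    wJ q I (fun i n => c * O i n) σ = c ^ k * wJ q I O σ := by
  unfold wJ
  rw [prod_mul_distrib, prod_const, card_univ, Fintype.card_fin]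
  ring

theorem sB_smul (c : ℝ) (F : (Tor M → Bool) → ℝ) :
    sB q I b (fun i n => c * O i n) F = c ^ k * sB q I b O F := by
  unfold sB
  rw [mul_sum]
  refine sum_congr rfl fun σ _ => ?_
  split_ifs
  · rw [wJ_smul]; ring
  · simp

theorem sB_ge {c : ℝ} (hx : 0 ≤ q.x) (hc : 0 ≤ c) (h : ∀ i n, c ≤ O i n) :
    0 ≤ sB q I b (1 : Fin k → _) 1 ∧ c ^ k * sB q I b (1 : Fin k → _) 1 ≤ sB q I b O 1 := by
  have w0 : ∀ σ, 0 ≤ wt (pwI I) q.x (nOf I σ) * Real.exp (uint q (nOf I σ)) := fun σ =>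
    mul_nonneg (H2D.wt_nonneg (fun e => by rcases IConv.pwI_val I e with h | h <;> simp [h]) hx _)
      (Real.exp_pos _).le
  unfold sB
  rw [mul_sum]
  refine ⟨sum_nonneg fun σ _ => ?_, sum_le_sum fun σ _ => ?_⟩
  · split_ifs
    · simpa [wJ] using w0 σ
    · exact le_rfl
  · split_ifs
    · have : c ^ k ≤ ∏ i, O i (nOf I σ) := by
        have := prod_le_prod (s := univ) (f := fun _ : Fin k => c) (fun _ _ => hc)
          fun i _ => h i (nOf I σ)
        simpa using this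
      simp only [wJ, Pi.one_apply, prod_const_one, mul_one, one_mul]
      rw [mul_comm]
      exact mul_le_mul_of_nonneg_left this (w0 σ)
    · simp

theorem mxJ_eq (h : Sel I a hs b s ε ς κ₀) (hy : ∀ i, yE M y j i ∈ I) (x : Fin n → Site)
    (t : Finset (Fin m)) : mxJ q I a hs ε s O y j x t = κ₀ * (∏ i, ς (x i)) *
      sB q I b O (fun σ => (∏ i, sp (per M σ (x i))) * ∏ i ∈ t, (sp (per M σ (y i)) *
        sp (per M σ (y i + dir (j i))) - enC q 0 (pwI I) (yE M y j i) (dE y j i))) /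
        Zw q (pwI I) 1 := by
  unfold mxJ mixJ
  simp only [← mul_div_assoc]
  rw [← sum_div, h]
  congr 2
  refine sum_congr rfl fun σ _ => ?_
  split_ifs
  · have : ∀ i, sgn (nOf I σ (yE M y j i, dE y j i)) =
        sp (per M σ (y i)) * sp (per M σ (y i + dir (j i))) := fun i => by
      rw [← sgn_dom, nOf, decide_eq_true (Or.inl (hy i)), Bool.and_true]
      rfl
    simp only [this]
    rw [← prod_coe_sort t]
    exact mul_right_comm _ _ _
  · rfl

theorem mxJ_empty (h : Sel I a hs b s ε ς κ₀) (hy : ∀ i, yE M y j i ∈ I) :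
    mxJ q I a hs ε s O y j Fin.elim0 ∅ = κ₀ * sB q I b O 1 / Zw q (pwI I) 1 := by
  rw [mxJ_eq h hy]
  simp only [univ_eq_empty, prod_empty, mul_one]
  rfl

theorem lcor_eq {J lam β : ℝ} {V : Finset Site → ℝ} {b₀ : Config} {Λ : Finset Site}
    (h : Sel I a hs b s ε ς κ₀) (hς : IsSign ς) (hκ : κ₀ ≠ 0) (hZ : Zw q (pwI I) 1 ≠ 0)
    (hG : ∀ F : Config → ℝ, (∀ σ σ', (∀ v ∈ Λ, σ v = σ' v) → F σ = F σ') →
      gibbs J lam V β (some b₀) Λ F = sB q I b O (fun σ => F (per M σ)) / sB q I b O 1)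
    (hI : ∀ i, yE M y j i ∈ I) {x : Fin n → Site} (hx : ∀ i, x i ∈ Λ)
    (hy : ∀ i, y i ∈ Λ ∧ y i + dir (j i) ∈ Λ) :
    lcor (gibbs J lam V β (some b₀) Λ) x y j =
      UL.psi (mxJ q I a hs ε s O y j Fin.elim0 ∅) (fun i => mxJ q I a hs ε s O y j Fin.elim0 {i})
        fun t => (∏ i, ς (x i)) * mxJ q I a hs ε s O y j x t := by
  have key : ∀ (n : ℕ) (x : Fin n → Site), (∀ i, x i ∈ Λ) → ∀ t : Finset (Fin m),
      gibbs J lam V β (some b₀) Λ (fun σ => (∏ i, sp (σ (x i))) * ∏ i ∈ t,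
        (sp (σ (y i)) * sp (σ (y i + dir (j i))) - enC q 0 (pwI I) (yE M y j i) (dE y j i))) =
      (∏ i, ς (x i)) * mxJ q I a hs ε s O y j x t / mxJ q I a hs ε s O y j Fin.elim0 ∅ := by
    intro n x hx t
    have e : (∏ i, ς (x i)) * ∏ i, ς (x i) = 1 := by
      rw [← prod_mul_distrib]
      exact prod_eq_one fun i _ => by rcases hς (x i) with h | h <;> simp [h]
    rw [hG _ fun σ σ' h => by
      simp only [fun i => h _ (hx i), fun i => h _ (hy i).1, fun i => h _ (hy i).2],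
      mxJ_eq h hI, mxJ_empty h hI, mul_div_assoc', div_div_div_cancel_right₀ hZ, ← mul_assoc,
      mul_left_comm _ κ₀, e, mul_one, mul_div_mul_left _ _ hκ]
  refine recentre _ Λ _ (fun i σ => sp (σ (y i)) * sp (σ (y i + dir (j i)))) _ (fun i => ?_)
    (key n x hx)
  simpa only [univ_eq_empty, prod_empty, one_mul, prod_singleton] using
    key 0 Fin.elim0 (fun i => i.elim0) {i}

theorem psi_hom {c : ℝ} (hc : c ≠ 0) (D : ℝ) (A : Fin m → ℝ) (N : Finset (Fin m) → ℝ) :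
    UL.psi (c * D) (fun i => c * A i) (fun t => c * N t) = UL.psi D A N := by
  simp only [UL.psi, mul_div_mul_left _ _ hc]

/-- Stability of the recentred correlation when the normalisation is only known up to a factor. -/
theorem psi_close (m : ℕ) {B c ε : ℝ} (hc : 0 < c) (hε : 0 < ε) : ∃ δ > 0,
    ∀ (D D' ζ : ℝ) (A A' : Fin m → ℝ) (N N' : Finset (Fin m) → ℝ), c ≤ |D| → c ≤ |D'| →
      |D'| ≤ B → (∀ i, |A' i| ≤ B) → (∀ t, |N' t| ≤ B) → |D - ζ * D'| ≤ δ →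
      (∀ i, |A i - ζ * A' i| ≤ δ) → (∀ t, |N t - ζ * N' t| ≤ δ) →
        |UL.psi D A N - UL.psi D' A' N'| ≤ ε := by
  obtain ⟨δ, hδ, h⟩ := psi_cont m (|B| / c + 1) hε
  have hB : 0 < |B| + 1 := by positivity
  refine ⟨min (c / 2) (δ * (c / 2)), by positivity,
    fun D D' ζ A A' N N' h1 h2 h3 h4 h5 h6 h7 h8 => ?_⟩
  have m1 := min_le_left (c / 2) (δ * (c / 2))
  have m2 := min_le_right (c / 2) (δ * (c / 2))
  have k1 : c / 2 ≤ |ζ * D'| := by
    have := abs_add_le (D - ζ * D') (ζ * D')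
    rw [sub_add_cancel] at this
    linarith
  have p1 : 0 < |ζ * D'| := by linarith
  have n1 : ζ * D' ≠ 0 := abs_pos.1 p1
  have n2 : D' ≠ 0 := right_ne_zero_of_mul n1
  have n3 : ζ ≠ 0 := left_ne_zero_of_mul n1
  have k2 : ∀ u u' : ℝ, |u - ζ * u'| ≤ min (c / 2) (δ * (c / 2)) →
      |(ζ * D')⁻¹ * u - D'⁻¹ * u'| ≤ δ := fun u u' hu => by
    have e : (ζ * D')⁻¹ * u - D'⁻¹ * u' = (u - ζ * u') / (ζ * D') := by field_simp
    rw [e, abs_div, div_le_iff₀ p1]
    exact hu.trans (m2.trans (mul_le_mul_of_nonneg_left k1 hδ.le))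
  have k3 : ∀ u : ℝ, |u| ≤ B → |D'⁻¹ * u| ≤ |B| / c + 1 := fun u hu => by
    rw [abs_mul, abs_inv, mul_comm, ← div_eq_mul_inv]
    have := div_le_div₀ (abs_nonneg B) (hu.trans (le_abs_self B)) hc h2
    linarith
  rw [← psi_hom (inv_ne_zero n1) D, ← psi_hom (inv_ne_zero n2) D']
  refine h _ _ _ _ _ _ (by rw [inv_mul_cancel₀ n2]) ?_ (fun i => k3 _ (h4 i)) (fun t => k3 _ (h5 t))
    (k2 _ _ h6) (fun i => k2 _ _ (h7 i)) fun t => k2 _ _ (h8 t)
  rw [inv_mul_cancel₀ n2]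
  have : 0 ≤ |B| / c := by positivity
  linarith

end Vale.Agent.P144Z.ILat
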