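import Vale.Agent.P144D.I.Lat.Defs
import Vale.Agent.P144D.I.Deep.Main
import Vale.Agent.P144D.B.Bd
import Vale.Agent.P144D.B.Gap
import Vale.Agent.P144D.FD.Both
import Vale.Agent.P144D.FD.Main
import Vale.Agent.P144D.U.Sec

/-!
# The regions of the shape `ShapeZ` form a good family
-/

namespace Vale.Agent.P144Z

open Finset Matrix

namespace ILZ

theorem mono {Λ : Finset (ℤ × ℤ)} {α κ κ' : ℝ} {r : ℕ} (h : ShapeZ Λ α κ r) (hκ : κ ≤ κ') :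
    ShapeZ Λ α κ' r := fun z => by
  obtain ⟨S₁, S₂, ν₁, ν₂, h1, h2, h3, h4, h5, h6⟩ := h z
  exact ⟨S₁, S₂, ν₁, ν₂, h1, h2, h3, GeoA.epi_mono h4 hκ, GeoA.epi_mono h5 hκ, h6⟩

/-- The class of the boundary estimates is good, for small `η` and large `L`. -/
theorem ok (c : ℝ) (n₁ : ℕ) (hc : 1 ≤ c) : ∃ η > (0 : ℝ), ∀ n₂ : ℕ, ∃ L₀ : ℕ, ∀ L ≥ L₀,
    ∃ C₁ : ℝ, 1 ≤ C₁ ∧ Cls.Ok (fun _ _ A J => BAll A L J c η n₁ n₂) L C₁ c := by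
  obtain ⟨ε₀, hε₀, hS⟩ := W.FD.steps
  obtain ⟨L₂, hS⟩ := hS c 8 hc
  refine ⟨min 1 (ε₀ / (162 * ((n₁ + 1) * c))), by positivity, fun n₂ =>
    ⟨max L₂ (max ⌈8000 * c ^ 2⌉₊ ⌈(1 + 81 * n₂) * c ^ 2 / (ε₀ / 2)⌉₊), fun L hL => ?_⟩⟩
  have hη0 : 0 < min 1 (ε₀ / (162 * ((n₁ + 1) * c))) := by positivity
  have hη1 := min_le_left 1 (ε₀ / (162 * ((n₁ + 1) * c)))
  have h1 := min_le_right 1 (ε₀ / (162 * ((n₁ + 1) * c)))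
  generalize min 1 (ε₀ / (162 * ((n₁ + 1) * c))) = η at *
  simp only [ge_iff_le, max_le_iff, Nat.ceil_le] at hL
  obtain ⟨l2, l3, l4⟩ := hL
  rw [div_le_iff₀ (by positivity), mul_comm (L : ℝ)] at l4
  have hη2 : 81 * (n₁ * c * η) ≤ ε₀ / 2 := by
    rw [le_div_iff₀ (by positivity)] at h1
    have h2 : 0 ≤ c * η := by positivity
    nlinarith
  have hL3 : 1 ≤ L := by
    have h1 : (1 : ℝ) ≤ L := by nlinarith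
    exact_mod_cast h1
  obtain ⟨C₁, hC₁, hS⟩ := hS L l2
  refine ⟨C₁, hC₁, fun g a1 a2 a3 a4 a5 => ?_⟩
  have hb := Both.bnd a5 hc hη0 hη1 hη2 l3 l4
  refine ⟨hS g g.M ⟨a1, a2, a3, Nat.le_mul_of_pos_right _ ?_, a4, hb⟩, fun j hj => ?_⟩
  · have := FM.eight_le_sc hL3 g.J
    omega
  · obtain ⟨_, _, _, _, -, -, -, -, -, a6⟩ := hb j hj
    exact a6.sch

end ILZ

theorem famOk_shape (α : ℝ) (hα : 0 < α) : FamOk fun κ Λ r => ShapeZ Λ α κ r := by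
  intro ε₁ hε₁
  obtain ⟨C, -, hD⟩ := deepStmt α hα
  obtain ⟨c, hc, n₁, hB⟩ := bdStmt α hα
  obtain ⟨η, hη, hO⟩ := ILZ.ok c n₁ hc
  obtain ⟨n₂, L₁, hB⟩ := hB η hη
  obtain ⟨L₂, hO⟩ := hO n₂
  refine ⟨C, max (max L₁ L₂) (max 1 ⌈c ^ 2 / ε₁⌉₊), fun L hL => ?_⟩
  simp only [ge_iff_le, max_le_iff, Nat.ceil_le] at hL
  obtain ⟨⟨l1, l2⟩, l3, l4⟩ := hL
  rw [div_le_iff₀ hε₁, mul_comm (L : ℝ)] at l4
  obtain ⟨κB, hκB, hB⟩ := hB L l1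
  obtain ⟨C₁, hC₁, hO⟩ := hO L l2
  have hm : 0 < min α 1 := lt_min hα one_pos
  refine ⟨min κB (min (1 / 8) (min α 1 / 100)), by positivity, _, C₁, c, hC₁, hc, l4, hO,
    fun κ h0 hκ => ?_⟩
  simp only [le_min_iff] at hκ
  obtain ⟨k1, k2, k3⟩ := hκ
  refine ⟨⟨8, 1, fun M _ Λ fr B T r ρ J h hΛ h1 h2 h3 h4 h5 h6 => ?_⟩, fun Λ₀ => ?_,
    fun Λ₀ => ?_, fun Λ r h => hD κ Λ r h0 (by linarith) h⟩
  · have h8 := FM.eight_le_sc l3 J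
    exact hB M (regOf M Λ fr) B ρ J ((h.shape hΛ (by omega)).mono k1 h3) h6 (by omega) h4 h5
  · obtain ⟨Γ, hΓ, hG⟩ := gapStmt Λ₀
    refine ⟨Γ, hΓ, 256, fun M _ Λ fr B T r ρ h h1 hΛ h2 h3 h4 h5 h6 h7 => ?_⟩
    refine hG M (regOf M Λ fr) B α T ρ ((h.shape hΛ (by omega)).mono k2 h4) h1 (fun f hf => ?_)
      h2 h3 (h4.trans h5) h6 h7
    obtain ⟨v, hv, rfl⟩ := mem_image.1 hf
    exact (UL.tdist_le v).trans (hΛ v hv)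
  · obtain ⟨H₀, hH⟩ := exists_holes Λ₀
    exact ⟨H₀, 64, fun Λ T r h => hH Λ α T r (ILZ.mono h k2)⟩

end Vale.Agent.P144Z
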